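import Vale.Agent.P134.M4.Assembly

set_option linter.all false

/-! Stability of monotone solutions in the two forms used in M4'. -/

open MeasureTheory Filter Topology

namespace Vale.Agent.P134.H688

open Vale.Agent.P134 Vale.Agent.P134.SM Vale.Agent.P134.M4

variable {n : ℕ} {u V φ f η : (Fin n → ℝ) → ℝ} {x : Fin n → ℝ}

/-- Stability tested with `f η`. -/
theorem stab_gen (hV : Continuous V)
    (hst : ∀ ξ : (Fin n → ℝ) → ℝ, ContDiff ℝ 1 ξ → HasCompactSupport ξ →
      0 ≤ ∫ x, (∑ j, (pd j ξ x) ^ 2 + V x * ξ x ^ 2))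
    (hf : ContDiff ℝ 2 f) (hη : ContDiff ℝ 1 η) (hc : HasCompactSupport η) :
    ∫ x, f x * (lap f x - V x * f x) * η x ^ 2 ≤ ∫ x, f x ^ 2 * gs η x := by
  have hf1 : ContDiff ℝ 1 f := hf.of_le (by norm_num)
  have hξ : ContDiff ℝ 1 (fun x => f x * η x) := hf1.mul hη
  have hcξ : HasCompactSupport (fun x => f x * η x) := hc.mul_left
  have h0 := hst _ hξ hcξ
  set ζ : (Fin n → ℝ) → ℝ := fun x => f x * η x ^ 2 with hζ
  have hζ1 : ContDiff ℝ 1 ζ := hf1.mul (hη.pow 2)
  have hcη2 : HasCompactSupport (fun x => η x ^ 2) := hcs_sq hc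
  have hcζ : HasCompactSupport ζ := hcη2.mul_left
  have df : Differentiable ℝ f := hf1.differentiable (by norm_num)
  have dη : Differentiable ℝ η := hη.differentiable (by norm_num)
  have hpw : ∀ x, ∑ j, (pd j (fun x => f x * η x) x) ^ 2
      = f x ^ 2 * gs η x + ∑ j, pd j f x * pd j ζ x := by
    intro x
    unfold gs
    rw [Finset.mul_sum, ← Finset.sum_add_distrib]
    refine Finset.sum_congr rfl fun j _ => ?_
    rw [hζ, pd_mul (df x) (dη x), pd_mul (df x) ((dη x).fun_pow 2), pd_sq (dη x)]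
    ring
  have cf : Continuous f := hf1.continuous
  have clf : Continuous (lap f) := by
    unfold lap
    exact continuous_finsetSum _ fun j _ => continuous_pd (contDiff_pd_one hf)
  have cgs : Continuous (gs η) := by
    unfold gs
    exact continuous_finsetSum _ fun j _ => (continuous_pd hη).pow 2
  have hcgs : HasCompactSupport (gs η) := by
    apply HasCompactSupport.intro hc
    intro x hx
    unfold gs
    exact Finset.sum_eq_zero fun j _ => by rw [pd_eq_zero_of_notMem_tsupport hx]; ring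
  have i1 : Integrable (fun x => f x ^ 2 * gs η x) :=
    ((cf.pow 2).mul cgs).integrable_of_hasCompactSupport hcgs.mul_left
  have i2 : Integrable (fun x => ∑ j, pd j f x * pd j ζ x) :=
    integrable_sum_mul (fun j => continuous_pd hf1) (fun j => continuous_pd hζ1)
      (fun j => hasCompactSupport_pd hcζ)
  have i3 : Integrable (fun x => V x * (f x * η x) ^ 2) :=
    (hV.mul ((cf.mul hη.continuous).pow 2)).integrable_of_hasCompactSupport (hcs_sq hcξ).mul_left
  have i4 : Integrable (fun x => lap f x * ζ x) :=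
    (clf.mul hζ1.continuous).integrable_of_hasCompactSupport hcζ.mul_left
  have hparts : ∫ x, ∑ j, pd j f x * pd j ζ x = - ∫ x, lap f x * ζ x := by
    have hint : ∀ j : Fin n, Integrable (fun x => pd j f x * pd j ζ x) := fun j =>
      ((continuous_pd hf1).mul (continuous_pd hζ1)).integrable_of_hasCompactSupport
        ((hasCompactSupport_pd hcζ).mul_left)
    have hint2 : ∀ j : Fin n, Integrable (fun x => pd j (pd j f) x * ζ x) := fun j =>
      ((continuous_pd (contDiff_pd_one hf)).mul hζ1.continuous).integrable_of_hasCompactSupport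
        (hcζ.mul_left)
    rw [integral_finsetSum _ (fun j _ => hint j)]
    have h1 : ∀ j : Fin n, ∫ x, pd j f x * pd j ζ x = - ∫ x, pd j (pd j f) x * ζ x := fun j =>
      integral_mul_pd (contDiff_pd_one hf) hζ1 hcζ
    simp_rw [h1]
    rw [Finset.sum_neg_distrib, ← integral_finsetSum _ (fun j _ => hint2 j)]
    congr 1
    apply integral_congr_ae
    filter_upwards with x
    rw [← Finset.sum_mul]; rfl
  have hsplit : ∫ x, (∑ j, (pd j (fun x => f x * η x) x) ^ 2 + V x * (f x * η x) ^ 2)
      = (∫ x, f x ^ 2 * gs η x) + (∫ x, ∑ j, pd j f x * pd j ζ x)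
        + ∫ x, V x * (f x * η x) ^ 2 := by
    have i12 : Integrable (fun x => f x ^ 2 * gs η x + ∑ j, pd j f x * pd j ζ x) := i1.add i2
    rw [← integral_add i1 i2, ← integral_add i12 i3]
    congr 1; ext x
    rw [hpw]
  have hres : ∫ x, f x * (lap f x - V x * f x) * η x ^ 2
      = (∫ x, lap f x * ζ x) - ∫ x, V x * (f x * η x) ^ 2 := by
    rw [← integral_sub i4 i3]
    congr 1; ext x
    rw [hζ]; ring
  rw [hsplit, hparts] at h0
  rw [hres]
  linarith

theorem stB : StB := by
  intro u hm
  have hu : Sol u := hm.toSol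
  have hpos : ∀ x, 0 < pd 3 u x := hm.pos
  obtain ⟨C, hC0, hC1, hC2, -⟩ := hu.exists_bound
  have hW : WeakLin (fun x => 3 * u x ^ 2 - 1) (pd 3 u) := hu.weakLin hC1 hC2 3
  have hφ : ContDiff ℝ 1 (pd 3 u) := contDiff_pd_one hu.c2
  have hVc : Continuous (fun x => 3 * u x ^ 2 - 1) :=
    (continuous_const.mul (hu.c2.continuous.pow 2)).sub continuous_const
  refine ⟨?_, ?_⟩
  · intro η hη hc
    have hgs : ∀ x, 0 < gs u x := hm.gs_pos
    have hw2 : ContDiff ℝ 2 (wn u) := contDiff_iff_contDiffAt.mpr fun x => Sol.wn_c2 hu (hgs x)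
    have h := stab_gen hVc (fun ξ h1 h2 => stability_ineq hφ hpos hVc hW h1 h2) hw2 hη hc
    refine le_trans (le_of_eq ?_) (h.trans (le_of_eq ?_))
    · congr 1; ext x
      rw [Sol.lap_wn hu (hgs x), ← wn_sq]
      ring
    · congr 1; ext x
      rw [wn_sq]
  · intro η hη hc
    exact (DStab.of_weakLin hu hφ hpos hW).ineq η hη hc

end Vale.Agent.P134.H688
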