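import Vale.Agent.P134.H688.Out

set_option linter.all false

/-! `FLAT ⟹ OUT2`. -/

open MeasureTheory Filter Topology Set

namespace Vale.Agent.P134.H688

open Vale.Agent.P134 Vale.Agent.P134.SM Vale.Agent.P134.M4
open Vale.Agent.P134.H891 (Psi ph mm pp ph_nonneg mm_nonneg mm_le_one mm_eq_zero ph_contDiff
  ph_hasCompactSupport hasDerivAt_Psi contDiff_Psi Psi_neg_one continuous_Psi ph_grad_le TT II
  Th_mono Psi_one_le Psi_nonneg Psi_le_Psi_one Psi_le_one ph_le_one)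

variable {n : ℕ} {u V φ f g η : (Fin n → ℝ) → ℝ} {x : Fin n → ℝ} {K : Set (Fin n → ℝ)}

/-- Cauchy–Schwarz on a bounded set, for continuous functions. -/
lemma cs_box {ρ : ℝ} (hf : Continuous f) (hg : Continuous g) (hf0 : ∀ x, 0 ≤ f x)
    (hg0 : ∀ x, 0 ≤ g x) (hK : K ⊆ box n ρ) {A B : ℝ}
    (hA : ∫ x in K, f x ^ 2 ≤ A) (hB : ∫ x in K, g x ^ 2 ≤ B) {t : ℝ} (ht : 0 < t) :
    2 * ∫ x in K, f x * g x ≤ t * A + B / t := by
  have i1 : IntegrableOn (fun x => f x ^ 2) K := integrableOn_box (hf.pow 2) hK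
  have i2 : IntegrableOn (fun x => g x ^ 2) K := integrableOn_box (hg.pow 2) hK
  have i3 : IntegrableOn (fun x => f x * g x) K := integrableOn_box (hf.mul hg) hK
  calc 2 * ∫ x in K, f x * g x = ∫ x in K, 2 * (f x * g x) := (integral_const_mul _ _).symm
    _ ≤ ∫ x in K, (t * f x ^ 2 + g x ^ 2 / t) := by
        apply setIntegral_mono (i3.const_mul 2) ((i1.const_mul t).add (i2.div_const t))
        intro x
        simp only [Pi.add_apply]
        have h1 : 0 ≤ (t * f x - g x) ^ 2 / t := by positivity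
        have h2 : (t * f x - g x) ^ 2 / t = t * f x ^ 2 + g x ^ 2 / t - 2 * (f x * g x) := by
          field_simp; ring
        linarith
    _ = t * (∫ x in K, f x ^ 2) + (∫ x in K, g x ^ 2) / t := by
        rw [integral_add (i1.const_mul t) (i2.div_const t), integral_const_mul, integral_div]
    _ ≤ t * A + B / t := by gcongr

lemma gn_eq_wn (u : (Fin n → ℝ) → ℝ) (x : Fin n → ℝ) : gn u x = wn u x := rfl

lemma box_subset_bl {R : ℝ} : (box 4 R : Set (Fin 4 → ℝ)) ⊆ bl (2 * R) := by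
  intro x hx
  rw [mem_box] at hx
  show rho Finset.univ x ≤ (2 * R) ^ 2
  unfold rho
  have h1 : ∀ i ∈ (Finset.univ : Finset (Fin 4)), x i ^ 2 ≤ R ^ 2 := fun i _ =>
    sq_le_sq' (abs_le.mp (hx i)).1 (abs_le.mp (hx i)).2
  refine (Finset.sum_le_sum h1).trans (le_of_eq ?_)
  simp; ring

/-- The half-space closeness from closeness to a layer. -/
lemma hsf_of_lay (hu : Sol u) {e : Fin n → ℝ} {R a b : ℝ} (hR : 0 ≤ R)
    (h1 : ∫ x in box n R, |Ps (lay e 0 x) - Ps (u x)| ≤ a)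
    (h2 : ∫ x in box n R, |Psi (lay e 0 x) - hsf e x| ≤ b) :
    ∫ x in bl R, |Psi (u x) - hsf e x| ≤ a + b := by
  have hb := bl_subset_box (n := n) hR
  have cl : Continuous (fun x => Psi (lay e 0 x)) :=
    continuous_Psi.comp (contDiff_lay (k := 1) e 0).continuous
  have cu : Continuous (fun x => Psi (u x)) := continuous_Psi.comp hu.c2.continuous
  have e1 : ∀ x, |Ps (lay e 0 x) - Ps (u x)| = |Psi (lay e 0 x) - Psi (u x)| := fun x => by
    rw [Psi_eq_Ps, Psi_eq_Ps, add_sub_add_right_eq_sub]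
  simp_rw [e1] at h1
  have j1 : IntegrableOn (fun x => |Psi (lay e 0 x) - Psi (u x)|) (box n R) :=
    integrableOn_box (cl.sub cu).abs subset_rfl
  have j2 := integrableOn_hsf (K := box n R) cl e subset_rfl
  have j3 := integrableOn_hsf (K := box n R) cu e subset_rfl
  calc ∫ x in bl R, |Psi (u x) - hsf e x| ≤ ∫ x in box n R, |Psi (u x) - hsf e x| :=
        setIntegral_mono_set j3 (Eventually.of_forall fun _ => abs_nonneg _) hb.eventuallyLE
    _ ≤ ∫ x in box n R, (|Psi (lay e 0 x) - Psi (u x)| + |Psi (lay e 0 x) - hsf e x|) := by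
        apply setIntegral_mono j3 (j1.add j2)
        intro x
        simp only [Pi.add_apply]
        have := abs_sub_le (Psi (u x)) (Psi (lay e 0 x)) (hsf e x)
        rw [abs_sub_comm (Psi (u x)) (Psi (lay e 0 x))] at this
        exact this
    _ ≤ a + b := by rw [integral_add j1 j2]; linarith

lemma hint_box {f : (Fin 4 → ℝ) → ℝ} {R : ℝ} (hR : 0 ≤ R) (hf : Continuous f)
    (hf0 : ∀ x, 0 ≤ f x) : ∫ x in box 4 R, f x ≤ ∫ x in bl (2 * R), f x :=
  setIntegral_mono_set (integrableOn_box hf (bl_subset_box (by linarith)))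
    (Eventually.of_forall hf0) box_subset_bl.eventuallyLE

lemma tau_sq_mul {u : (Fin n → ℝ) → ℝ} (hgs : ∀ x, 0 < gs u x) (e x : Fin n → ℝ) :
    tau e u x ^ 2 * gs u x = dd e u x ^ 2 := by
  unfold tau
  rw [div_pow, wn_sq]
  have := (hgs x).ne'
  field_simp

lemma one_sub_tau_nonneg {u : (Fin n → ℝ) → ℝ} (hgs : ∀ x, 0 < gs u x) {e : Fin n → ℝ}
    (he : ∑ i, e i ^ 2 = 1) (x : Fin n → ℝ) : 0 ≤ 1 - tau e u x ^ 2 := by
  have h3 := gt_sq he u x
  have h4 := tau_sq_mul hgs e x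
  have h5 : gn u x ^ 2 = gs u x := wn_sq u x
  have h6 : (1 - tau e u x ^ 2) * gs u x = gt e u x ^ 2 := by rw [h3, h5, ← h4]; ring
  by_contra hcon
  have h7 : (1 - tau e u x ^ 2) * gs u x < 0 := mul_neg_of_neg_of_pos (not_le.mp hcon) (hgs x)
  nlinarith [sq_nonneg (gt e u x)]

lemma flat_h1 {u : (Fin 4 → ℝ) → ℝ} (hu : Sol u) (hgs : ∀ x, 0 < gs u x) {e : Fin 4 → ℝ}
    (he : ∑ i, e i ^ 2 = 1) {R C δ : ℝ} (hR0 : 0 < R) (hC : 0 < C) (hδ : 0 < δ)
    (hA : ∫ x in box 4 R, psi u x ^ 2 ≤ C * (2 * R) ^ 3)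
    (hfl : ∫ x in bl (2 * R), psi u x * wn u x * (1 - tau e u x ^ 2)
      ≤ δ * (δ / (8 * C)) / 8 * (2 * R) ^ 3) :
    R * ∫ x in box 4 R, psi u x / Real.sqrt 2 * gt e u x ≤ δ * R ^ 4 := by
  have hu1 : ContDiff ℝ 1 u := hu.c2.of_le (by norm_num)
  have cψ : Continuous (psi u) := hu.psi_contDiff.continuous
  have cw : Continuous (wn u) := continuous_gn hu1
  have ψ0 := hu.psi_nonneg
  have hs2 := one_le_sqrt2
  set t0 : ℝ := δ / (8 * C) with ht0
  have ht00 : 0 < t0 := by positivity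
  have hsub : (box 4 R : Set (Fin 4 → ℝ)) ⊆ box 4 R := subset_rfl
  have ha := one_sub_tau_nonneg hgs he
  have ctau : Continuous (tau e u) := by
    unfold tau
    exact (continuous_dd hu1 e).div cw fun x => (wn_pos (hgs x)).ne'
  set f1 : (Fin 4 → ℝ) → ℝ := fun x => Real.sqrt (psi u x * wn u x) with hf1
  set g1 : (Fin 4 → ℝ) → ℝ := fun x => Real.sqrt (psi u x * wn u x * (1 - tau e u x ^ 2)) with hg1
  have cf1 : Continuous f1 := Real.continuous_sqrt.comp (cψ.mul cw)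
  have cg1 : Continuous g1 :=
    Real.continuous_sqrt.comp ((cψ.mul cw).mul (continuous_const.sub (ctau.pow 2)))
  have hpw : ∀ x, 0 ≤ psi u x * wn u x := fun x => mul_nonneg (ψ0 x) (wn_nonneg _ _)
  have e1 : ∀ x, f1 x ^ 2 = psi u x * wn u x := fun x => Real.sq_sqrt (hpw x)
  have e2 : ∀ x, g1 x ^ 2 = psi u x * wn u x * (1 - tau e u x ^ 2) := fun x =>
    Real.sq_sqrt (mul_nonneg (hpw x) (ha x))
  have hAf : ∫ x in box 4 R, f1 x ^ 2 ≤ C * (2 * R) ^ 3 := by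
    refine le_trans ?_ hA
    simp_rw [e1]
    apply setIntegral_mono (integrableOn_box (cψ.mul cw) hsub)
      (integrableOn_box (cψ.pow 2) hsub)
    intro x
    have h3 : wn u x ≤ psi u x := (Sol.gn_le hu x).trans (div_le_self (ψ0 x) hs2)
    have := mul_le_mul_of_nonneg_left h3 (ψ0 x)
    show psi u x * wn u x ≤ psi u x ^ 2
    nlinarith
  have hBg : ∫ x in box 4 R, g1 x ^ 2 ≤ δ * t0 / 8 * (2 * R) ^ 3 := by
    simp_rw [e2]
    refine le_trans ?_ hfl
    exact hint_box hR0.le ((cψ.mul cw).mul (continuous_const.sub (ctau.pow 2)))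
      (fun x => mul_nonneg (hpw x) (ha x))
  have hcs := cs_box cf1 cg1 (fun _ => Real.sqrt_nonneg _) (fun _ => Real.sqrt_nonneg _) hsub
    hAf hBg ht00
  have e3 : ∀ x, f1 x * g1 x = psi u x * gt e u x := by
    intro x
    rw [hf1, hg1]
    simp only
    rw [← Real.sqrt_mul (hpw x)]
    have h5 : gn u x ^ 2 = gs u x := wn_sq u x
    have h6 : psi u x * wn u x * (psi u x * wn u x * (1 - tau e u x ^ 2))
        = (psi u x * gt e u x) ^ 2 := by
      have h4 := tau_sq_mul hgs e x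
      have h7 := wn_sq u x
      rw [mul_pow, gt_sq he, h5, ← h4, ← h7]; ring
    rw [h6, Real.sqrt_sq (mul_nonneg (ψ0 x) (gt_nonneg _ _ _))]
  simp_rw [e3] at hcs
  have h8 : ∫ x in box 4 R, psi u x / Real.sqrt 2 * gt e u x
      ≤ ∫ x in box 4 R, psi u x * gt e u x := by
    apply setIntegral_mono (integrableOn_box ((cψ.div_const _).mul (continuous_gt hu1 e)) hsub)
      (integrableOn_box (cψ.mul (continuous_gt hu1 e)) hsub)
    intro x
    exact mul_le_mul_of_nonneg_right (div_le_self (ψ0 x) hs2) (gt_nonneg _ _ _)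
  have h9 : ∫ x in box 4 R, psi u x * gt e u x ≤ δ * R ^ 3 := by
    have e4 : t0 * (C * (2 * R) ^ 3) = δ * R ^ 3 := by rw [ht0]; field_simp; ring
    have e5 : δ * t0 / 8 * (2 * R) ^ 3 / t0 = δ * R ^ 3 := by field_simp; ring
    rw [e4, e5] at hcs
    linarith
  calc R * ∫ x in box 4 R, psi u x / Real.sqrt 2 * gt e u x ≤ R * (δ * R ^ 3) :=
        mul_le_mul_of_nonneg_left (h8.trans h9) hR0.le
    _ = δ * R ^ 4 := by ring

lemma flat_h2 {u : (Fin 4 → ℝ) → ℝ} (hu : Sol u) {R C δ : ℝ} (hR0 : 0 < R) (hC : 0 < C)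
    (hδ : 0 < δ) (hA : ∫ x in box 4 R, psi u x ^ 2 ≤ C * (2 * R) ^ 3)
    (hRS : ∫ x in bl (2 * R), rd u x ^ 2 ≤ δ ^ 2 / (256 * C) * (2 * R) ^ 5) :
    ∫ x in box 4 R, psi u x / Real.sqrt 2 * |∑ i, x i * pd i u x| ≤ δ * R ^ 4 := by
  have hu1 : ContDiff ℝ 1 u := hu.c2.of_le (by norm_num)
  have cψ : Continuous (psi u) := hu.psi_contDiff.continuous
  have ψ0 := hu.psi_nonneg
  have hs2 := one_le_sqrt2
  have hsub : (box 4 R : Set (Fin 4 → ℝ)) ⊆ box 4 R := subset_rfl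
  have crd : Continuous (fun x : Fin 4 → ℝ => ∑ i, x i * pd i u x) :=
    continuous_finsetSum _ fun i _ => (continuous_apply i).mul (continuous_pd hu1)
  set t1 : ℝ := δ * R / (8 * C) with ht1
  have ht10 : 0 < t1 := by positivity
  have hB : ∫ x in box 4 R, |∑ i, x i * pd i u x| ^ 2 ≤ δ ^ 2 / (256 * C) * (2 * R) ^ 5 := by
    simp_rw [sq_abs]
    exact (hint_box hR0.le (crd.pow 2) (fun _ => sq_nonneg _)).trans hRS
  have hcs := cs_box cψ crd.abs ψ0 (fun _ => abs_nonneg _) hsub hA hB ht10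
  have e4 : t1 * (C * (2 * R) ^ 3) = δ * R ^ 4 := by rw [ht1]; field_simp; ring
  have e5 : δ ^ 2 / (256 * C) * (2 * R) ^ 5 / t1 = δ * R ^ 4 := by rw [ht1]; field_simp; ring
  rw [e4, e5] at hcs
  have h8 : ∫ x in box 4 R, psi u x / Real.sqrt 2 * |∑ i, x i * pd i u x|
      ≤ ∫ x in box 4 R, psi u x * |∑ i, x i * pd i u x| := by
    apply setIntegral_mono (integrableOn_box ((cψ.div_const _).mul crd.abs) hsub)
      (integrableOn_box (cψ.mul crd.abs) hsub)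
    intro x
    exact mul_le_mul_of_nonneg_right (div_le_self (ψ0 x) hs2) (abs_nonneg _)
  linarith

lemma flat_h3 {u : (Fin 4 → ℝ) → ℝ} (hu : Sol u) {R C δ : ℝ} (hR0 : 0 < R) (hC : 0 < C)
    (hδ : 0 < δ) (hR2 : 128 * C / δ ^ 2 ≤ R)
    (hA : ∫ x in box 4 R, psi u x ^ 2 ≤ C * (2 * R) ^ 3) :
    ∫ x in box 4 R, psi u x ≤ δ * R ^ 4 := by
  have cψ : Continuous (psi u) := hu.psi_contDiff.continuous
  have ψ0 := hu.psi_nonneg
  have hsub : (box 4 R : Set (Fin 4 → ℝ)) ⊆ box 4 R := subset_rfl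
  set t1 : ℝ := δ * R / (8 * C) with ht1
  have ht10 : 0 < t1 := by positivity
  have hB : ∫ x in box 4 R, (1:ℝ) ^ 2 ≤ (2 * R) ^ 4 := by
    simp only [one_pow]
    rw [setIntegral_const, smul_eq_mul, mul_one]
    exact le_of_eq (volume_box hR0.le)
  have hcs := cs_box (g := fun _ => (1:ℝ)) cψ continuous_const ψ0 (fun _ => zero_le_one) hsub hA
    hB ht10
  simp only [mul_one] at hcs
  have e4 : t1 * (C * (2 * R) ^ 3) = δ * R ^ 4 := by rw [ht1]; field_simp; ring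
  have e5 : (2 * R) ^ 4 / t1 ≤ δ * R ^ 4 := by
    rw [ht1, div_le_iff₀ (by positivity)]
    have h8 : 128 * C ≤ R * δ ^ 2 := by
      rwa [div_le_iff₀ (by positivity)] at hR2
    have h9 : δ * R ^ 4 * (δ * R / (8 * C)) = R ^ 4 * ((R * δ ^ 2) / (8 * C)) := by ring
    rw [h9]
    have h10 : 16 ≤ (R * δ ^ 2) / (8 * C) := by
      rw [le_div_iff₀ (by positivity)]; linarith
    calc (2 * R) ^ 4 = R ^ 4 * 16 := by ring
      _ ≤ _ := mul_le_mul_of_nonneg_left h10 (by positivity)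
  rw [e4] at hcs
  linarith

lemma low_density {u : (Fin 4 → ℝ) → ℝ} (hu : Sol u) (hgs : ∀ x, 0 < gs u x) :
    ∃ c : ℝ, 0 < c ∧ ∀ R : ℝ, 1 ≤ R → c * R ^ 3 ≤ ∫ x, ph R x * en u x := by
  have hu1 : ContDiff ℝ 1 u := hu.c2.of_le (by norm_num)
  refine ⟨TT (fun _ => 1) u 1, ?_, fun R hR1 => ?_⟩
  · rw [TT_eq]
    have hen : ∀ x, 0 < en u x := by
      intro x
      unfold en
      have h1 : 0 < ∑ j, pd j u x ^ 2 := hgs x
      positivity
    have hpos : 0 < ∫ x, ph 1 x * en u x := by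
      apply Continuous.integral_pos_of_hasCompactSupport_nonneg_nonzero
        ((ph_contDiff 1).continuous.mul (continuous_en hu1))
        (ph_hasCompactSupport one_pos).mul_right
        (fun x => mul_nonneg (ph_nonneg _ _) (hen x).le) (x := 0)
      have e1 : ph 1 (0 : Fin 4 → ℝ) = 1 := by
        unfold ph mm pp esq
        simp
      show ph 1 (0 : Fin 4 → ℝ) * en u 0 ≠ 0
      rw [e1, one_mul]
      exact (hen 0).ne'
    simpa using hpos
  · have hR0 : 0 < R := by linarith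
    have hmono := Th_mono hu (3 : Fin 4) (Set.mem_Ioi.mpr one_pos) (Set.mem_Ioi.mpr hR0) hR1
    rw [TT_eq u R, le_div_iff₀ (by positivity)] at hmono
    exact hmono

/-- The constants are excluded by the flux estimate and the lower density. -/
lemma excl_const {u : (Fin 4 → ℝ) → ℝ} (h : Mo u) {c κ R σ : ℝ} (hR0 : 0 < R) (hc : 0 < c)
    (hκ2 : κ ≤ c / 16) (hlow : c * R ^ 3 ≤ ∫ x, ph R x * en u x) (hσ : σ ^ 2 = 1)
    (hcl : ∫ x in box 4 R, |Ps σ - Ps (u x)| ≤ κ * R ^ 4) : False := by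
  have hu : Sol u := h.toSol
  have k1 := flux hu h.pos (Mo.lim h) (ph_contDiff R) (ph_hasCompactSupport hR0) (ph_nonneg R) hσ
  have cP : Continuous (fun x => |Ps σ - Ps (u x)|) :=
    (continuous_const.sub (continuous_Ps.comp hu.c2.continuous)).abs
  have k2 := integral_gn_ph_le hR0 cP (fun _ => abs_nonneg _)
  have k3 : ∫ x in bl R, |Ps σ - Ps (u x)| ≤ κ * R ^ 4 := by
    refine le_trans ?_ hcl
    exact setIntegral_mono_set (integrableOn_box cP subset_rfl)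
      (Eventually.of_forall fun _ => abs_nonneg _) (bl_subset_box hR0.le).eventuallyLE
  have k4 : c * R ^ 3 ≤ 4 / R * (κ * R ^ 4) :=
    hlow.trans (k1.trans (k2.trans (mul_le_mul_of_nonneg_left k3 (by positivity))))
  have k5 : 4 / R * (κ * R ^ 4) = 4 * κ * R ^ 3 := by field_simp
  rw [k5] at k4
  have k6 : 0 < R ^ 3 := by positivity
  nlinarith

theorem out2_of_flat {u : (Fin 4 → ℝ) → ℝ} (h : Mo u) (hE : E3' u) (hS : S0 u) (hF : FLAT u) :
    OUT2 u := by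
  have hu : Sol u := h.toSol
  have hgs : ∀ x, 0 < gs u x := h.gs_pos
  have cψ : Continuous (psi u) := hu.psi_contDiff.continuous
  obtain ⟨C0, hC0⟩ := hE.e3
  obtain ⟨C, hCpos, hC⟩ : ∃ C : ℝ, 0 < C ∧ ∀ R : ℝ, 1 ≤ R → ∫ x in bl R, psi u x ^ 2 ≤ C * R ^ 3 :=
    ⟨max C0 1, lt_of_lt_of_le one_pos (le_max_right _ _), fun R hR =>
      (hC0 R hR).trans (mul_le_mul_of_nonneg_right (le_max_left _ _) (by positivity))⟩
  obtain ⟨c, hcpos, hlow⟩ := low_density hu hgs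
  intro ε hε
  obtain ⟨κ, hκ0, hκ1, hκ2⟩ : ∃ κ : ℝ, 0 < κ ∧ κ ≤ ε / 4 ∧ κ ≤ c / 16 :=
    ⟨min (ε / 4) (c / 16), lt_min (by positivity) (by positivity), min_le_left _ _, min_le_right _ _⟩
  obtain ⟨η, hη0, hη1, hη2⟩ : ∃ η : ℝ, 0 < η ∧ η ≤ 1 / 4 ∧ η ≤ κ / 1024 :=
    ⟨min (1 / 4) (κ / 1024), lt_min (by norm_num) (by positivity), min_le_left _ _, min_le_right _ _⟩
  obtain ⟨M, hM0, hM⟩ : ∃ M : ℝ, 0 < M ∧
      (8 * ((4:ℕ):ℝ)) ^ 4 * (2 * ((4:ℕ):ℝ)) * (((4:ℕ):ℝ) + 2) / η + 1 = M :=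
    ⟨_, by positivity, rfl⟩
  obtain ⟨δ, hδ0, hδ⟩ : ∃ δ : ℝ, 0 < δ ∧ 2 * (M * δ) = κ / 4 :=
    ⟨κ / (8 * M), by positivity, by field_simp; ring⟩
  have hF1 := hF (δ * (δ / (8 * C)) / 8) (by positivity)
  have hS1 := hS (δ ^ 2 / (256 * C)) (by positivity)
  have hdbl : Tendsto (fun R : ℝ => 2 * R) atTop atTop :=
    tendsto_id.const_mul_atTop (by norm_num)
  filter_upwards [eventually_ge_atTop (1 : ℝ), eventually_ge_atTop (128 * C / δ ^ 2),
    eventually_ge_atTop (256 / (η * κ)), hdbl.eventually hF1, hdbl.eventually hS1,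
    eventually_lay_hsf (ε := ε / 4) (by positivity)] with R hR1 hR2 hR3 hRF hRS hRL
  have hR0 : 0 < R := by linarith
  obtain ⟨e, he, hfl⟩ := hRF
  have hA : ∫ x in box 4 R, psi u x ^ 2 ≤ C * (2 * R) ^ 3 :=
    (hint_box hR0.le (cψ.pow 2) (fun _ => sq_nonneg _)).trans (hC _ (by linarith))
  obtain ⟨t, ht, hclose⟩ := flat_tgt (by norm_num) hu he hη0 hη1 hR0
    (flat_h1 hu hgs he hR0 hCpos hδ0 hA hfl) (flat_h2 hu hR0 hCpos hδ0 hA hRS)
    (flat_h3 hu hR0 hCpos hδ0 hR2 hA)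
  rw [hM] at hclose
  have k2 : 2 ^ 4 * (4 / (η * R)) ≤ κ / 4 := by
    rw [← mul_div_assoc, div_le_div_iff₀ (by positivity) (by norm_num)]
    rw [div_le_iff₀ (by positivity)] at hR3
    nlinarith
  have k3 : 2 ^ 4 * (4 * ((4:ℕ):ℝ) * η) ≤ κ / 4 := by
    push_cast
    linarith
  have hconst : (2 * (M * δ) + 2 ^ 4 * (4 / (η * R) + 4 * ((4:ℕ):ℝ) * η)) ≤ κ := by
    rw [mul_add, hδ]
    linarith
  have hclose' : ∫ x in box 4 R, |Ps (t x) - Ps (u x)| ≤ κ * R ^ 4 :=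
    hclose.trans (mul_le_mul_of_nonneg_right hconst (by positivity))
  have hfin : ∀ e' : Fin 4 → ℝ, ∑ i, e' i ^ 2 = 1 → t = lay e' 0 →
      ∫ x in bl R, |Psi (u x) - hsf e' x| ≤ ε * R ^ 4 := by
    intro e' he' hte
    rw [hte] at hclose'
    refine (hsf_of_lay hu hR0.le hclose' (hRL e' he')).trans ?_
    nlinarith [pow_pos hR0 4]
  rcases ht with ht | ht | ht | ht
  · exact (excl_const h hR0 hcpos hκ2 (hlow R hR1) (σ := 1) (by norm_num)
      (by rw [ht] at hclose'; exact hclose')).elim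
  · exact (excl_const h hR0 hcpos hκ2 (hlow R hR1) (σ := -1) (by norm_num)
      (by rw [ht] at hclose'; exact hclose')).elim
  · exact ⟨e, he, hfin e he ht⟩
  · exact ⟨fun i => - e i, by simpa using he, hfin _ (by simpa using he) ht⟩

theorem stE : StE := fun u h hE hS hF =>
  have h2 := out2_of_flat h hE hS hF
  ⟨out1_of_out2 h h2, h2⟩

end Vale.Agent.P134.H688
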