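import Vale.Agent.P134.H688.Calib
import Mathlib.Analysis.Calculus.ImplicitContDiff

set_option linter.all false

/-! Every competitor is a shift of the monotone solution; weighted minimality. -/

namespace Vale.Agent.P134.H688

open Vale.Agent.P134 MeasureTheory Filter Topology Set

variable {n : ℕ} {u v T φ f g : (Fin n → ℝ) → ℝ} {x : Fin n → ℝ} {i j q : Fin n}

lemma strictMono_line (hu : Differentiable ℝ u) (hq : ∀ x, 0 < pd q u x) (x : Fin n → ℝ) :
    StrictMono (fun t : ℝ => u (x + t • Pi.single q 1)) :=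
  strictMono_of_deriv_pos fun t => by
    rw [(hasDerivAt_ln hu x q t).deriv]; exact hq _

/-- The two limits in direction `q`. -/
structure Lim (q : Fin n) (u : (Fin n → ℝ) → ℝ) : Prop where
  top : ∀ x : Fin n → ℝ, Tendsto (fun t : ℝ => u (x + t • Pi.single q 1)) atTop (𝓝 1)
  bot : ∀ x : Fin n → ℝ, Tendsto (fun t : ℝ => u (x + t • Pi.single q 1)) atBot (𝓝 (-1))

theorem exists_T (hu : Sol u) (hq : ∀ x, 0 < pd q u x) (hl : Lim q u) (hv : ContDiff ℝ 1 v)
    (hv1 : ∀ x, |v x| < 1) :
    ∃ T : (Fin n → ℝ) → ℝ, ContDiff ℝ 1 T ∧ ∀ x, u (x + T x • Pi.single q 1) = v x := by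
  have hdu : Differentiable ℝ u := hu.c2.differentiable (by norm_num)
  have hc : ∀ x : Fin n → ℝ, Continuous (fun t : ℝ => u (x + t • Pi.single q 1)) := fun x =>
    hu.c2.continuous.comp (by fun_prop)
  have hex : ∀ x, ∃ t : ℝ, u (x + t • Pi.single q 1) = v x := by
    intro x
    have h1 := (abs_lt.mp (hv1 x))
    have a1 : ∃ t : ℝ, v x ≤ u (x + t • Pi.single q 1) :=
      (((hl.top x).eventually (eventually_gt_nhds h1.2)).exists).imp fun t ht => ht.le
    have a2 : ∃ t : ℝ, u (x + t • Pi.single q 1) ≤ v x :=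
      (((hl.bot x).eventually (eventually_lt_nhds h1.1)).exists).imp fun t ht => ht.le
    exact mem_range_of_exists_le_of_exists_ge (hc x) a2 a1
  choose T hT using hex
  refine ⟨T, ?_, hT⟩
  rw [contDiff_iff_contDiffAt]
  intro x0
  set F : (Fin n → ℝ) × ℝ → ℝ := fun p => u (p.1 + p.2 • Pi.single q 1) - v p.1 with hF
  have cF : ContDiff ℝ 1 F :=
    ((hu.c2.of_le (by norm_num)).comp (contDiff_fst.add (contDiff_snd.smul contDiff_const))).sub
      (hv.comp contDiff_fst)
  have dF : Differentiable ℝ F := cF.differentiable (by norm_num)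
  have cFa : ContDiffAt ℝ 1 F (x0, T x0) := cF.contDiffAt
  have hinv : (fderiv ℝ F (x0, T x0) ∘L .inr ℝ (Fin n → ℝ) ℝ).IsInvertible := by
    set c : ℝ := pd q u (x0 + T x0 • Pi.single q 1) with hc0
    have hcp : c ≠ 0 := (hq _).ne'
    refine ⟨ContinuousLinearEquiv.unitsEquivAut ℝ (Units.mk0 c hcp), ?_⟩
    ext
    simp only [ContinuousLinearMap.comp_apply]
    have h1 : HasDerivAt (fun t : ℝ => F (x0, t)) c (T x0) :=
      (hasDerivAt_ln hdu x0 q (T x0)).sub_const (v x0)
    have h2 : HasDerivAt (fun t : ℝ => F (x0, t))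
        (fderiv ℝ F (x0, T x0) (ContinuousLinearMap.inr ℝ (Fin n → ℝ) ℝ 1)) (T x0) := by
      have h3 : HasDerivAt (fun t : ℝ => ((x0, t) : (Fin n → ℝ) × ℝ)) (0, 1) (T x0) :=
        (hasDerivAt_const _ _).prodMk (hasDerivAt_id _)
      exact (dF (x0, T x0)).hasFDerivAt.comp_hasDerivAt (T x0) h3
    have := h1.unique h2
    simpa using this
  have hev := cFa.eventually_apply_implicitFunction one_ne_zero hinv
  have hcd := cFa.contDiffAt_implicitFunction one_ne_zero hinv
  refine hcd.congr_of_eventuallyEq ?_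
  filter_upwards [hev] with x hx
  have h1 : F (x0, T x0) = 0 := by simp [hF, hT]
  rw [h1] at hx
  have h2 : u (x + cFa.implicitFunction one_ne_zero hinv x • Pi.single q 1) = v x := by
    simp only [hF] at hx
    linarith
  exact ((strictMono_line hdu hq x).injective (h2.trans (hT x).symm)).symm

/-- **Weighted minimality.** No boundary condition on the competitor `v`. -/
theorem calib (hu : Sol u) (hq : ∀ x, 0 < pd q u x) (hl : Lim q u) (hv : ContDiff ℝ 1 v)
    (hv1 : ∀ x, |v x| < 1) (hφ : ContDiff ℝ 1 φ) (hc : HasCompactSupport φ)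
    (hφ0 : ∀ x, 0 ≤ φ x) :
    ∫ x, φ x * en u x ≤ (∫ x, φ x * en v x) + ∫ x, gn φ x * |Ps (v x) - Ps (u x)| := by
  obtain ⟨T, hT, hTv⟩ := exists_T hu hq hl hv hv1
  have h := calib_shift hu hq hT hφ hc hφ0
  have e : (fun y => u (y + T y • Pi.single q 1)) = v := funext hTv
  rw [e] at h
  simp_rw [hTv] at h
  exact h

lemma continuous_en (hv : ContDiff ℝ 1 v) : Continuous (en v) := by
  unfold en
  exact (continuous_const.mul (continuous_finsetSum _ fun j _ =>
    (continuous_pd hv).pow 2)).add (((continuous_const.sub (hv.continuous.pow 2)).pow 2).div_const 4)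

lemma en_const (c : ℝ) (x : Fin n → ℝ) : en (fun _ => c) x = (1 - c ^ 2) ^ 2 / 4 := by
  unfold en
  simp [pd_const]

/-- Flux estimate: comparison with the constants. -/
theorem flux (hu : Sol u) (hq : ∀ x, 0 < pd q u x) (hl : Lim q u)
    (hφ : ContDiff ℝ 1 φ) (hc : HasCompactSupport φ) (hφ0 : ∀ x, 0 ≤ φ x) {ε : ℝ}
    (hε : ε ^ 2 = 1) :
    ∫ x, φ x * en u x ≤ ∫ x, gn φ x * |Ps ε - Ps (u x)| := by
  have hcu : Continuous u := hu.c2.continuous
  have cg : Continuous (gn φ) := continuous_gn hφ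
  have iφ : Integrable φ := hφ.continuous.integrable_of_hasCompactSupport hc
  have ig : Integrable (gn φ) := cg.integrable_of_hasCompactSupport (hasCompactSupport_gn hc)
  have ip : ∀ c : ℝ, Integrable (fun x => gn φ x * |Ps c - Ps (u x)|) := fun c =>
    (cg.mul (continuous_const.sub (continuous_Ps.comp hcu)).abs).integrable_of_hasCompactSupport
      (hasCompactSupport_gn hc).mul_right
  set A : ℝ := ∫ x, gn φ x
  set B : ℝ := ∫ x, φ x
  set R : ℝ := ∫ x, gn φ x * |Ps ε - Ps (u x)| with hR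
  set f : ℝ → ℝ := fun δ => R + |Ps (ε * (1 - δ)) - Ps ε| * A
    + (1 - (ε * (1 - δ)) ^ 2) ^ 2 / 4 * B with hf
  have hfc : Continuous f := by
    simp only [hf]
    have := continuous_Ps
    fun_prop
  have hle : ∀ δ ∈ Ioo (0:ℝ) 1, ∫ x, φ x * en u x ≤ f δ := by
    intro δ hδ
    set c : ℝ := ε * (1 - δ) with hcdef
    have hc1 : |c| < 1 := by
      rw [← sq_lt_one_iff_abs_lt_one, hcdef, mul_pow, hε, one_mul]
      nlinarith [hδ.1, hδ.2]
    have h1 := calib hu hq hl (v := fun _ => c) contDiff_const (fun _ => hc1) hφ hc hφ0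
    simp_rw [en_const] at h1
    rw [integral_mul_const] at h1
    have h2 : ∫ x, gn φ x * |Ps c - Ps (u x)| ≤ R + |Ps c - Ps ε| * A := by
      rw [hR, ← integral_const_mul, ← integral_add (ip ε) (ig.const_mul _)]
      apply integral_mono (ip c) ((ip ε).add (ig.const_mul _))
      intro x
      simp only [Pi.add_apply]
      have h3 : |Ps c - Ps (u x)| ≤ |Ps c - Ps ε| + |Ps ε - Ps (u x)| := abs_sub_le _ _ _
      nlinarith [gn_nonneg φ x]
    simp only [hf]
    nlinarith
  have hlim : Tendsto f (𝓝[>] 0) (𝓝 (f 0)) := hfc.continuousAt.tendsto.mono_left nhdsWithin_le_nhds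
  have hf0 : f 0 = R := by
    simp only [hf, sub_zero, mul_one, sub_self, abs_zero, zero_mul, hε]
    norm_num
  rw [hf0] at hlim
  apply ge_of_tendsto hlim
  filter_upwards [Ioo_mem_nhdsGT (zero_lt_one (α := ℝ))] with δ hδ using hle δ hδ

end Vale.Agent.P134.H688
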