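import Vale.Agent.P134.Bdl.B1
import Vale.Agent.P134.SM.Smooth

set_option linter.all false

/-! Weighted calibration inequality for solutions which are monotone in one direction. -/

namespace Vale.Agent.P134.H688

open Vale.Agent.P134 MeasureTheory Filter Topology Set

variable {n : ℕ} {u v T φ f g : (Fin n → ℝ) → ℝ} {x : Fin n → ℝ} {i j q : Fin n}

/-- Euclidean norm of the gradient. -/
noncomputable def gn (f : (Fin n → ℝ) → ℝ) (x : Fin n → ℝ) : ℝ := Real.sqrt (∑ j, pd j f x ^ 2)

/-- The primitive of `sqrt (2 W)`. -/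
noncomputable def Ps (t : ℝ) : ℝ := (t - t ^ 3 / 3) / Real.sqrt 2

lemma gn_nonneg (f : (Fin n → ℝ) → ℝ) (x : Fin n → ℝ) : 0 ≤ gn f x := Real.sqrt_nonneg _

lemma gn_sq (f : (Fin n → ℝ) → ℝ) (x : Fin n → ℝ) : gn f x ^ 2 = ∑ j, pd j f x ^ 2 :=
  Real.sq_sqrt (Finset.sum_nonneg fun _ _ => sq_nonneg _)

lemma continuous_gn (hf : ContDiff ℝ 1 f) : Continuous (gn f) :=
  Real.continuous_sqrt.comp (continuous_finsetSum _ fun j _ => (continuous_pd hf).pow 2)

lemma gn_eq_zero_of_notMem (hx : x ∉ tsupport f) : gn f x = 0 := by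
  unfold gn
  have : ∀ j, pd j f x = 0 := fun j => pd_eq_zero_of_notMem_tsupport hx
  simp [this]

lemma hasCompactSupport_gn (hf : HasCompactSupport f) : HasCompactSupport (gn f) :=
  HasCompactSupport.intro hf fun _ hx => gn_eq_zero_of_notMem hx

lemma abs_sum_le_gn (f g : (Fin n → ℝ) → ℝ) (x : Fin n → ℝ) :
    |∑ j, pd j f x * pd j g x| ≤ gn f x * gn g x := by
  apply abs_le_of_sq_le_sq _ (mul_nonneg (gn_nonneg _ _) (gn_nonneg _ _))
  rw [mul_pow, gn_sq, gn_sq]
  exact Finset.sum_mul_sq_le_sq_mul_sq _ _ _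

lemma sqrt2_pos : 0 < Real.sqrt 2 := Real.sqrt_pos.mpr (by norm_num)

lemma Sol.gn_le (hu : Sol u) (x : Fin n → ℝ) : gn u x ≤ psi u x / Real.sqrt 2 := by
  apply le_of_sq_le_sq _ (div_nonneg (hu.psi_nonneg x) sqrt2_pos.le)
  rw [gn_sq, div_pow, Real.sq_sqrt (by norm_num)]
  have := hu.defi_nonneg x
  unfold defi at this
  linarith

lemma hasDerivAt_Ps (t : ℝ) : HasDerivAt Ps ((1 - t ^ 2) / Real.sqrt 2) t := by
  unfold Ps
  have h : HasDerivAt (fun t : ℝ => (t - t ^ 3 / 3) / Real.sqrt 2)
      ((1 - (((3:ℕ):ℝ) * t ^ (3 - 1)) / 3) / Real.sqrt 2) t :=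
    ((hasDerivAt_id t).sub ((hasDerivAt_pow 3 t).div_const 3)).div_const (Real.sqrt 2)
  have e : (1 - (((3:ℕ):ℝ) * t ^ (3 - 1)) / 3) = 1 - t ^ 2 := by norm_num
  rwa [e] at h

lemma continuous_Ps : Continuous Ps := by
  unfold Ps; fun_prop

/-- Chain rule for a shift in direction `q`. -/
lemma pd_shiftT (hf : Differentiable ℝ f) (hT : Differentiable ℝ T) (j : Fin n) (x : Fin n → ℝ) :
    pd j (fun x => f (x + T x • Pi.single q 1)) x
      = pd j f (x + T x • Pi.single q 1) + pd q f (x + T x • Pi.single q 1) * pd j T x := by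
  unfold pd
  have h1 : HasFDerivAt (fun x : Fin n → ℝ => x + T x • (Pi.single q 1 : Fin n → ℝ))
      (ContinuousLinearMap.id ℝ _ + (fderiv ℝ T x).smulRight (Pi.single q 1)) x :=
    (hasFDerivAt_id x).add ((hT x).hasFDerivAt.smul_const _)
  have h2 := (hf (x + T x • Pi.single q 1)).hasFDerivAt.comp x h1
  have e : fderiv ℝ (fun x => f (x + T x • Pi.single q 1)) x = _ := h2.fderiv
  rw [e]
  simp [mul_comm]

/-- Differentiation under the integral sign, compact support. -/
lemma hasDerivAt_integral_cpt {G G' : ℝ → (Fin n → ℝ) → ℝ} {K : Set (Fin n → ℝ)}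
    (hK : IsCompact K) (hG : ∀ t, AEStronglyMeasurable (G t) volume)
    (hG' : Continuous (fun p : ℝ × (Fin n → ℝ) => G' p.1 p.2))
    (hd : ∀ t x, HasDerivAt (fun t => G t x) (G' t x) t)
    (h0 : ∀ t x, x ∉ K → G' t x = 0) (t0 : ℝ) (hi : Integrable (G t0)) :
    HasDerivAt (fun t => ∫ x, G t x) (∫ x, G' t0 x) t0 := by
  obtain ⟨M, hM⟩ := ((isCompact_closedBall t0 (1:ℝ)).prod hK).exists_bound_of_continuousOn
    hG'.continuousOn
  refine (hasDerivAt_integral_of_dominated_loc_of_deriv_le (μ := volume)
    (s := Metric.ball t0 1) (F := G) (F' := G')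
    (bound := K.indicator fun _ => M) (Metric.ball_mem_nhds t0 one_pos)
    (Eventually.of_forall fun t => hG t) hi
    (hG'.comp (by fun_prop : Continuous fun x : Fin n → ℝ => (t0, x))).aestronglyMeasurable
    ?_ ?_ ?_).2
  · filter_upwards with x
    intro t ht
    by_cases hx : x ∈ K
    · rw [indicator_of_mem hx]
      exact hM (t, x) ⟨Metric.ball_subset_closedBall ht, hx⟩
    · rw [indicator_of_notMem hx, h0 t x hx, norm_zero]
  · exact (integrable_indicator_iff hK.measurableSet).mpr
      (integrableOn_const (hs := hK.measure_lt_top.ne))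
  · filter_upwards with x
    intro t _
    exact hd t x

/-- The field `u_q ∇u`. -/
noncomputable def Fd (q j : Fin n) (u : (Fin n → ℝ) → ℝ) (x : Fin n → ℝ) : ℝ := pd q u x * pd j u x

lemma Sol.Fd_contDiff (hu : Sol u) (q j : Fin n) : ContDiff ℝ 1 (Fd q j u) :=
  (contDiff_pd_one hu.c2).mul (contDiff_pd_one hu.c2)

/-- `div (u_q ∇u) = ∂_q e(u)`. -/
lemma Sol.div_Fd (hu : Sol u) (q : Fin n) (x : Fin n → ℝ) :
    ∑ j, pd j (Fd q j u) x = pd q (en u) x := by
  have d1 : ∀ j, DifferentiableAt ℝ (pd j u) x := fun j =>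
    (contDiff_pd_one hu.c2).differentiable (by norm_num) x
  have e : ∀ j, pd j (Fd q j u) x = pd q u x * pd j (pd j u) x + pd j u x * pd q (pd j u) x := by
    intro j
    unfold Fd
    rw [pd_mul (d1 q) (d1 j), pd_comm hu.c2 (i := q) (j := j)]
  simp_rw [e]
  rw [pd_en hu.c2, Finset.sum_add_distrib, ← Finset.mul_sum, hu.eq]
  ring

/-- The integral of a divergence against a weight. -/
lemma integral_div_weight {F : Fin n → (Fin n → ℝ) → ℝ} (hF : ∀ j, ContDiff ℝ 1 (F j))
    (hφ : ContDiff ℝ 1 φ) (hc : HasCompactSupport φ) :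
    ∫ x, φ x * ∑ j, pd j (F j) x = - ∫ x, ∑ j, F j x * pd j φ x := by
  have i1 : ∀ j, Integrable (fun x => φ x * pd j (F j) x) := fun j =>
    (hφ.continuous.mul (continuous_pd (hF j))).integrable_of_hasCompactSupport hc.mul_right
  have i2 : ∀ j, Integrable (fun x => F j x * pd j φ x) := fun j =>
    ((hF j).continuous.mul (continuous_pd hφ)).integrable_of_hasCompactSupport
      (hasCompactSupport_pd hc).mul_left
  simp_rw [Finset.mul_sum]
  rw [integral_finsetSum _ fun j _ => i1 j, integral_finsetSum _ fun j _ => i2 j,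
    ← Finset.sum_neg_distrib]
  refine Finset.sum_congr rfl fun j _ => ?_
  rw [integral_mul_pd (hF j) hφ hc, neg_neg]
  congr 1; ext x; ring

lemma hasDerivAt_shs (hf : Differentiable ℝ f) (x : Fin n → ℝ) (q : Fin n) (c s : ℝ) :
    HasDerivAt (fun s : ℝ => f (x + (s * c) • Pi.single q 1))
      (pd q f (x + (s * c) • Pi.single q 1) * c) s := by
  have h0 : HasDerivAt (fun s : ℝ => s * c) c s := by
    simpa using (hasDerivAt_id s).mul_const c
  exact (hasDerivAt_ln hf x q (s * c)).comp s h0

lemma continuous_shT (hf : Continuous f) (hT : Continuous T) (q : Fin n) :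
    Continuous (fun x => f (x + T x • Pi.single q 1)) :=
  hf.comp (continuous_id.add (hT.smul continuous_const))

/-- The weighted calibration inequality: no boundary condition on the competitor. -/
theorem calib_shift (hu : Sol u) (hq : ∀ x, 0 < pd q u x) (hT : ContDiff ℝ 1 T)
    (hφ : ContDiff ℝ 1 φ) (hc : HasCompactSupport φ) (hφ0 : ∀ x, 0 ≤ φ x) :
    ∫ x, φ x * en u x ≤ (∫ x, φ x * en (fun y => u (y + T y • Pi.single q 1)) x)
      + ∫ x, gn φ x * |Ps (u (x + T x • Pi.single q 1)) - Ps (u x)| := by
  classical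
  set e : Fin n → ℝ := Pi.single q 1 with he
  have hdu : Differentiable ℝ u := hu.c2.differentiable (by norm_num)
  have hcu : Continuous u := hu.c2.continuous
  have cen : Continuous (en u) := (en_contDiff hu.c2).continuous
  have den : Differentiable ℝ (en u) := (en_contDiff hu.c2).differentiable (by norm_num)
  have cq : ∀ j, Continuous (pd j u) := fun j => (contDiff_pd_one hu.c2).continuous
  have cF : ∀ j, ContDiff ℝ 1 (Fd q j u) := fun j => Sol.Fd_contDiff hu q j
  have dF : ∀ j, Differentiable ℝ (Fd q j u) := fun j => (cF j).differentiable (by norm_num)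
  have dT : Differentiable ℝ T := hT.differentiable (by norm_num)
  have cT : Continuous T := hT.continuous
  have cpT : ∀ j, Continuous (pd j T) := fun j => continuous_pd hT
  set σ : (Fin n → ℝ) → ℝ := fun x => if 0 ≤ T x then 1 else -1 with hσ
  have hσT : ∀ x, σ x * T x = |T x| := by
    intro x
    simp only [hσ]
    split_ifs with h
    · rw [abs_of_nonneg h, one_mul]
    · rw [abs_of_neg (not_le.mp h)]; ring
  have hσm : Measurable σ :=
    Measurable.ite (measurableSet_le measurable_const cT.measurable) measurable_const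
      measurable_const
  set y : ℝ → (Fin n → ℝ) → (Fin n → ℝ) := fun s x => x + (s * T x) • e with hy
  have cy : Continuous (fun p : ℝ × (Fin n → ℝ) => y p.1 p.2) := by
    simp only [hy]
    exact continuous_snd.add ((continuous_fst.mul (cT.comp continuous_snd)).smul continuous_const)
  set A : ℝ → (Fin n → ℝ) → ℝ := fun s x =>
    en u (y s x) + s * ∑ j, Fd q j u (y s x) * pd j T x with hA
  set A' : ℝ → (Fin n → ℝ) → ℝ := fun s x =>
    pd q (en u) (y s x) * T x + ((1 * ∑ j, Fd q j u (y s x) * pd j T x)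
      + s * ∑ j, (pd q (Fd q j u) (y s x) * T x) * pd j T x) with hA'
  set B : ℝ → (Fin n → ℝ) → ℝ := fun s x => σ x * (Ps (u (y s x)) - Ps (u x)) with hB
  set B' : ℝ → (Fin n → ℝ) → ℝ := fun s x =>
    |T x| * ((1 - u (y s x) ^ 2) / Real.sqrt 2 * pd q u (y s x)) with hB'
  have dA : ∀ s x, HasDerivAt (fun s => A s x) (A' s x) s := by
    intro s x
    simp only [hA, hA', hy]
    refine (hasDerivAt_shs den x q (T x) s).add ((hasDerivAt_id s).mul ?_)
    exact HasDerivAt.fun_sum fun j _ => (hasDerivAt_shs (dF j) x q (T x) s).mul_const _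
  have dB : ∀ s x, HasDerivAt (fun s => B s x) (B' s x) s := by
    intro s x
    have h1 := (hasDerivAt_Ps (u (y s x))).comp s (hasDerivAt_shs hdu x q (T x) s)
    have h2 := (h1.sub_const (Ps (u x))).const_mul (σ x)
    refine h2.congr_deriv ?_
    simp only [hB', ← hσT x, hy]
    ring
  -- the total
  set G : ℝ → (Fin n → ℝ) → ℝ := fun s x => φ x * A s x + gn φ x * B s x with hG
  set G' : ℝ → (Fin n → ℝ) → ℝ := fun s x => φ x * A' s x + gn φ x * B' s x with hG'
  have cg : Continuous (gn φ) := continuous_gn hφ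
  have cys : ∀ s, Continuous (y s) := fun s =>
    cy.comp (by fun_prop : Continuous fun x : Fin n → ℝ => (s, x))
  have cA : ∀ s, Continuous (A s) := by
    intro s
    simp only [hA]
    exact (cen.comp (cys s)).add (continuous_const.mul (continuous_finsetSum _ fun j _ =>
      (((cF j).continuous).comp (cys s)).mul (cpT j)))
  have mB : ∀ s, Measurable (B s) := by
    intro s
    simp only [hB]
    exact hσm.mul (((continuous_Ps.comp (hcu.comp (cys s))).sub
      (continuous_Ps.comp hcu)).measurable)
  have hPs : ∀ t : ℝ, |t| ≤ 1 → |Ps t| ≤ 1 := by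
    intro t ht
    unfold Ps
    have h2 : (1:ℝ) ≤ Real.sqrt 2 := by
      rw [show (1:ℝ) = Real.sqrt 1 by simp]; exact Real.sqrt_le_sqrt (by norm_num)
    rw [abs_div, abs_of_pos sqrt2_pos, div_le_one sqrt2_pos]
    have := abs_sub_cube_le ht
    linarith
  have hBb : ∀ s x, |B s x| ≤ 2 := by
    intro s x
    simp only [hB]
    rw [abs_mul]
    have h1 : |σ x| = 1 := by
      simp only [hσ]; split_ifs <;> simp
    rw [h1, one_mul]
    refine (abs_sub _ _).trans ?_
    have := hPs _ (hu.bd (y s x)); have := hPs _ (hu.bd x)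
    linarith
  have iG1 : ∀ s, Integrable (fun x => φ x * A s x) := fun s =>
    (hφ.continuous.mul (cA s)).integrable_of_hasCompactSupport hc.mul_right
  have ig : Integrable (gn φ) := cg.integrable_of_hasCompactSupport (hasCompactSupport_gn hc)
  have iG2 : ∀ s, Integrable (fun x => gn φ x * B s x) := fun s =>
    ig.mul_bdd (c := 2) (mB s).aestronglyMeasurable
      (Eventually.of_forall fun x => by rw [Real.norm_eq_abs]; exact hBb s x)
  have iG : ∀ s, Integrable (G s) := fun s => (iG1 s).add (iG2 s)
  have cG' : Continuous (fun p : ℝ × (Fin n → ℝ) => G' p.1 p.2) := by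
    simp only [hG', hA', hB']
    have c1 : Continuous (fun p : ℝ × (Fin n → ℝ) => T p.2) := cT.comp continuous_snd
    have c2 : ∀ j, Continuous (fun p : ℝ × (Fin n → ℝ) => pd j T p.2) := fun j =>
      (cpT j).comp continuous_snd
    refine ((hφ.continuous.comp continuous_snd).mul (((((continuous_pd (en_contDiff hu.c2)).comp
      cy).mul c1).add ((continuous_const.mul (continuous_finsetSum _ fun j _ =>
      (((cF j).continuous).comp cy).mul (c2 j))).add (continuous_fst.mul
      (continuous_finsetSum _ fun j _ => ((((continuous_pd (cF j)).comp cy).mul c1).mul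
        (c2 j)))))))).add ((cg.comp continuous_snd).mul (c1.abs.mul ?_))
    exact ((continuous_const.sub ((hcu.comp cy).pow 2)).div_const _).mul ((cq q).comp cy)
  have hder : ∀ s, HasDerivAt (fun s => ∫ x, G s x) (∫ x, G' s x) s := by
    intro s
    refine hasDerivAt_integral_cpt (K := tsupport φ) hc (fun t => (iG t).aestronglyMeasurable) cG'
      (fun t x => ((dA t x).const_mul _).add ((dB t x).const_mul _)) ?_ s (iG s)
    intro t x hx
    simp only [hG']
    rw [image_eq_zero_of_notMem_tsupport hx, gn_eq_zero_of_notMem hx]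
    ring
  have hnn : ∀ s, 0 ≤ ∫ x, G' s x := by
    intro s
    set Y : Fin n → (Fin n → ℝ) → ℝ := fun j x => T x * Fd q j u (x + (s * T x) • e) with hY
    have csT : ContDiff ℝ 1 (fun x => s * T x) := contDiff_const.mul hT
    have cY : ∀ j, ContDiff ℝ 1 (Y j) := fun j =>
      hT.mul ((cF j).comp (contDiff_id.add (csT.smul contDiff_const)))
    have pY : ∀ x, ∑ j, pd j (Y j) x = A' s x := by
      intro x
      have e1 : ∀ j, pd j (Y j) x = T x * (pd j (Fd q j u) (y s x)
          + pd q (Fd q j u) (y s x) * (s * pd j T x)) + Fd q j u (y s x) * pd j T x := by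
        intro j
        have h3 : DifferentiableAt ℝ (fun x => Fd q j u (x + (s * T x) • e)) x :=
          ((cF j).comp (contDiff_id.add (csT.smul contDiff_const))).differentiable (by norm_num) x
        simp only [hY]
        rw [pd_mul (dT x) h3, pd_shiftT (T := fun x => s * T x) (dF j)
          (csT.differentiable (by norm_num)),
          pd_mul (f := fun _ => s) (differentiableAt_const _) (dT x), pd_const]
        simp only [hy]
        ring
      simp_rw [e1]
      rw [Finset.sum_add_distrib, ← Finset.mul_sum, Finset.sum_add_distrib, Sol.div_Fd hu q]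
      simp only [hA', one_mul]
      have e2 : ∑ j, (pd q (Fd q j u) (y s x) * T x) * pd j T x
          = T x * ∑ j, pd q (Fd q j u) (y s x) * pd j T x := by
        rw [Finset.mul_sum]; exact Finset.sum_congr rfl fun j _ => by ring
      have e3 : ∑ j, pd q (Fd q j u) (y s x) * (s * pd j T x)
          = s * ∑ j, pd q (Fd q j u) (y s x) * pd j T x := by
        rw [Finset.mul_sum]; exact Finset.sum_congr rfl fun j _ => by ring
      rw [e2, e3]; ring
    have h1 := integral_div_weight cY hφ hc
    simp_rw [pY] at h1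
    have i3 : Integrable (fun x => φ x * A' s x) := by
      have : (fun x => φ x * A' s x) = fun x => φ x * ∑ j, pd j (Y j) x := by
        funext x; rw [pY]
      rw [this]
      exact (hφ.continuous.mul (continuous_finsetSum _ fun j _ =>
        continuous_pd (cY j))).integrable_of_hasCompactSupport hc.mul_right
    have i4 : Integrable (fun x => gn φ x * B' s x) := by
      apply Continuous.integrable_of_hasCompactSupport
      · simp only [hB']
        exact cg.mul (cT.abs.mul (((continuous_const.sub ((hcu.comp (cys s)).pow 2)).div_const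
          _).mul ((cq q).comp (cys s))))
      · exact (hasCompactSupport_gn hc).mul_right
    have i5 : Integrable (fun x => ∑ j, Y j x * pd j φ x) :=
      integrable_sum_mul (fun j => (cY j).continuous) (fun j => continuous_pd hφ)
        (fun j => hasCompactSupport_pd hc)
    have h2 : ∫ x, G' s x = ∫ x, (gn φ x * B' s x - ∑ j, Y j x * pd j φ x) := by
      rw [integral_sub i4 i5]
      simp only [hG']
      rw [integral_add i3 i4, h1]; ring
    rw [h2]
    apply integral_nonneg
    intro x
    simp only [Pi.zero_apply]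
    have h3 : |∑ j, pd j φ x * pd j u (y s x)| ≤ gn φ x * gn u (y s x) := by
      apply abs_le_of_sq_le_sq _ (mul_nonneg (gn_nonneg _ _) (gn_nonneg _ _))
      rw [mul_pow, gn_sq, gn_sq]
      exact Finset.sum_mul_sq_le_sq_mul_sq _ _ _
    have h4 : gn u (y s x) ≤ (1 - u (y s x) ^ 2) / Real.sqrt 2 := Sol.gn_le hu (y s x)
    have h5 : ∑ j, Y j x * pd j φ x
        = (T x * pd q u (y s x)) * ∑ j, pd j φ x * pd j u (y s x) := by
      rw [Finset.mul_sum]
      refine Finset.sum_congr rfl fun j _ => ?_
      simp only [hY, Fd, hy]; ring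
    rw [h5]
    have h6 : (T x * pd q u (y s x)) * ∑ j, pd j φ x * pd j u (y s x)
        ≤ (|T x| * pd q u (y s x)) * (gn φ x * ((1 - u (y s x) ^ 2) / Real.sqrt 2)) := by
      refine (le_abs_self _).trans ?_
      rw [abs_mul, abs_mul, abs_of_pos (hq _)]
      refine mul_le_mul_of_nonneg_left (h3.trans ?_) (mul_nonneg (abs_nonneg _) (hq _).le)
      exact mul_le_mul_of_nonneg_left h4 (gn_nonneg _ _)
    simp only [hB']
    linarith
  have hmono : Monotone (fun s => ∫ x, G s x) :=
    monotone_of_deriv_nonneg (fun s => (hder s).differentiableAt) fun s => by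
      rw [(hder s).deriv]; exact hnn s
  have h01 := hmono (zero_le_one (α := ℝ))
  simp only at h01
  have g0 : ∀ x, G 0 x = φ x * en u x := by
    intro x
    simp [hG, hA, hB, hy]
  simp_rw [g0] at h01
  refine h01.trans ?_
  have y1 : ∀ x, y 1 x = x + T x • e := fun x => by simp [hy]
  have cv : ContDiff ℝ 1 (fun y => u (y + T y • e)) :=
    (hu.c2.of_le (by norm_num)).comp (contDiff_id.add (hT.smul contDiff_const))
  have cenv : Continuous (en (fun y => u (y + T y • e))) := by
    unfold en
    exact (continuous_const.mul (continuous_finsetSum _ fun j _ =>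
      (continuous_pd cv).pow 2)).add (((continuous_const.sub (cv.continuous.pow 2)).pow 2).div_const 4)
  have i6 : Integrable (fun x => φ x * en (fun y => u (y + T y • e)) x) :=
    (hφ.continuous.mul cenv).integrable_of_hasCompactSupport hc.mul_right
  have i7 : Integrable (fun x => gn φ x * |Ps (u (x + T x • e)) - Ps (u x)|) := by
    apply Continuous.integrable_of_hasCompactSupport
    · exact cg.mul ((continuous_Ps.comp cv.continuous).sub (continuous_Ps.comp hcu)).abs
    · exact (hasCompactSupport_gn hc).mul_right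
  rw [← integral_add i6 i7]
  apply integral_mono (iG 1) (i6.add i7)
  intro x
  simp only [hG, Pi.add_apply]
  apply add_le_add
  · apply mul_le_mul_of_nonneg_left _ (hφ0 x)
    simp only [hA, y1, one_mul]
    unfold en
    have pv : ∀ j, pd j (fun y => u (y + T y • e)) x
        = pd j u (x + T x • e) + pd q u (x + T x • e) * pd j T x := fun j =>
      pd_shiftT hdu dT j x
    simp_rw [pv]
    have e4 : ∑ j, (pd j u (x + T x • e) + pd q u (x + T x • e) * pd j T x) ^ 2
        = ∑ j, pd j u (x + T x • e) ^ 2 + 2 * ∑ j, Fd q j u (x + T x • e) * pd j T x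
          + ∑ j, (pd q u (x + T x • e) * pd j T x) ^ 2 := by
      rw [Finset.mul_sum, ← Finset.sum_add_distrib, ← Finset.sum_add_distrib]
      refine Finset.sum_congr rfl fun j _ => ?_
      unfold Fd; ring
    rw [e4]
    have h7 : 0 ≤ ∑ j, (pd q u (x + T x • e) * pd j T x) ^ 2 :=
      Finset.sum_nonneg fun _ _ => sq_nonneg _
    linarith
  · apply mul_le_mul_of_nonneg_left _ (gn_nonneg _ _)
    simp only [hB, y1, hσ]
    split_ifs with h
    · rw [one_mul]; exact le_abs_self _
    · rw [neg_one_mul]; exact neg_le_abs _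

end Vale.Agent.P134.H688
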