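import Vale.Agent.P134.H688.Poinc
import Vale.Agent.P134.SM.Ident

set_option linter.all false

/-! Unoriented flatness implies `L¹` closeness to a constant or to a layer. -/

namespace Vale.Agent.P134.H688

open Vale.Agent.P134 MeasureTheory Filter Topology Set
open scoped ENNReal

variable {n : ℕ} {u v T φ f g G : (Fin n → ℝ) → ℝ} {x e : Fin n → ℝ} {i j q : Fin n}
  {K : Set (Fin n → ℝ)} {ρ η δ s : ℝ}

/-- Tangential part of the gradient. -/
noncomputable def gt (e : Fin n → ℝ) (u : (Fin n → ℝ) → ℝ) (x : Fin n → ℝ) : ℝ :=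
  Real.sqrt (gn u x ^ 2 - dd e u x ^ 2)

lemma gt_nonneg (e : Fin n → ℝ) (u : (Fin n → ℝ) → ℝ) (x : Fin n → ℝ) : 0 ≤ gt e u x :=
  Real.sqrt_nonneg _

lemma gt_sq (he : ∑ i, e i ^ 2 = 1) (u : (Fin n → ℝ) → ℝ) (x : Fin n → ℝ) :
    gt e u x ^ 2 = gn u x ^ 2 - dd e u x ^ 2 := by
  unfold gt
  rw [Real.sq_sqrt]
  have h := abs_dd_le he u x
  nlinarith [abs_nonneg (dd e u x), gn_nonneg u x, sq_abs (dd e u x)]

lemma gt_sq' (he : ∑ i, e i ^ 2 = 1) (u : (Fin n → ℝ) → ℝ) (x : Fin n → ℝ) :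
    gt e u x ^ 2 = ∑ i, (pd i u x - dd e u x * e i) ^ 2 := by
  rw [gt_sq he, gn_sq]
  have h1 : ∑ i, (pd i u x - dd e u x * e i) ^ 2
      = ∑ i, pd i u x ^ 2 - 2 * dd e u x * ∑ i, e i * pd i u x
        + dd e u x ^ 2 * ∑ i, e i ^ 2 := by
    rw [Finset.mul_sum, Finset.mul_sum, ← Finset.sum_sub_distrib, ← Finset.sum_add_distrib]
    exact Finset.sum_congr rfl fun i _ => by ring
  rw [h1, he]
  have h2 : ∑ i, e i * pd i u x = dd e u x := rfl
  rw [h2]; ring

lemma continuous_gt (hu : ContDiff ℝ 1 u) (e : Fin n → ℝ) : Continuous (gt e u) :=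
  Real.continuous_sqrt.comp (((continuous_gn hu).pow 2).sub ((continuous_dd hu e).pow 2))

lemma gn_le_add (he : ∑ i, e i ^ 2 = 1) (u : (Fin n → ℝ) → ℝ) (x : Fin n → ℝ) :
    gn u x ≤ |dd e u x| + gt e u x := by
  apply le_of_sq_le_sq _ (add_nonneg (abs_nonneg _) (gt_nonneg _ _ _))
  have := gt_sq he u x
  nlinarith [abs_nonneg (dd e u x), gt_nonneg e u x, sq_abs (dd e u x)]

lemma rd_sub_le (he : ∑ i, e i ^ 2 = 1) (u : (Fin n → ℝ) → ℝ) {x : Fin n → ℝ} (hρ : 0 ≤ ρ)
    (hx : x ∈ box n ρ) :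
    |(∑ i, e i * x i) * dd e u x| ≤ |∑ i, x i * pd i u x| + n * ρ * gt e u x := by
  have h1 : (∑ i, e i * x i) * dd e u x
      = (∑ i, x i * pd i u x) - ∑ i, x i * (pd i u x - dd e u x * e i) := by
    rw [← Finset.sum_sub_distrib, Finset.sum_mul]
    exact Finset.sum_congr rfl fun i _ => by ring
  have h2 : |∑ i, x i * (pd i u x - dd e u x * e i)| ≤ n * ρ * gt e u x := by
    have hn : (0:ℝ) ≤ n := Nat.cast_nonneg n
    apply abs_le_of_sq_le_sq _ (mul_nonneg (mul_nonneg hn hρ) (gt_nonneg _ _ _))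
    refine (Finset.sum_mul_sq_le_sq_mul_sq _ _ _).trans ?_
    rw [mul_pow, gt_sq' he]
    apply mul_le_mul_of_nonneg_right _ (Finset.sum_nonneg fun _ _ => sq_nonneg _)
    have h3 : ∀ i ∈ (Finset.univ : Finset (Fin n)), x i ^ 2 ≤ ρ ^ 2 := fun i _ =>
      sq_le_sq' (abs_le.mp (mem_box.mp hx i)).1 (abs_le.mp (mem_box.mp hx i)).2
    refine (Finset.sum_le_sum h3).trans ?_
    simp only [Finset.sum_const, Finset.card_univ, Fintype.card_fin, nsmul_eq_mul, mul_pow]
    apply mul_le_mul_of_nonneg_right _ (sq_nonneg _)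
    rcases Nat.eq_zero_or_pos n with h0 | h0
    · subst h0; simp
    · have : (1:ℝ) ≤ n := by exact_mod_cast h0
      nlinarith
  rw [h1]
  refine (abs_sub _ _).trans ?_
  linarith

/-- Half box. -/
def half (e : Fin n → ℝ) (s η ρ : ℝ) : Set (Fin n → ℝ) :=
  {x | x ∈ box n ρ ∧ η ≤ s * ∑ i, e i * x i}

lemma half_subset (e : Fin n → ℝ) (s η ρ : ℝ) : half e s η ρ ⊆ box n ρ := fun _ hx => hx.1

lemma measurableSet_half (e : Fin n → ℝ) (s η ρ : ℝ) : MeasurableSet (half e s η ρ) := by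
  have h1 : IsClosed {x : Fin n → ℝ | η ≤ s * ∑ i, e i * x i} :=
    isClosed_le continuous_const (continuous_const.mul
      (continuous_finsetSum _ fun i _ => continuous_const.mul (continuous_apply i)))
  exact ((isCompact_box ρ).isClosed.inter h1).measurableSet

lemma convex_half (e : Fin n → ℝ) (s η ρ : ℝ) : Convex ℝ (half e s η ρ) := by
  have h1 : Convex ℝ (box n ρ) := convex_Icc _ _
  intro x hx y hy a b ha hb hab
  refine ⟨h1 hx.1 hy.1 ha hb hab, ?_⟩
  have e1 : s * ∑ i, e i * (a • x + b • y) i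
      = a * (s * ∑ i, e i * x i) + b * (s * ∑ i, e i * y i) := by
    simp only [Finset.mul_sum]
    rw [← Finset.sum_add_distrib]
    refine Finset.sum_congr rfl fun i _ => ?_
    simp only [Pi.add_apply, Pi.smul_apply, smul_eq_mul]; ring
  rw [e1]
  have h2 := mul_le_mul_of_nonneg_left hx.2 ha
  have h3 := mul_le_mul_of_nonneg_left hy.2 hb
  have : η = a * η + b * η := by rw [← add_mul, hab, one_mul]
  linarith

lemma sum_abs_le (he : ∑ i, e i ^ 2 = 1) (i : Fin n) : |e i| ≤ 1 := by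
  have h := Finset.single_le_sum (f := fun i => e i ^ 2) (fun _ _ => sq_nonneg _)
    (Finset.mem_univ i)
  rw [he] at h
  exact (sq_le_one_iff_abs_le_one _).mp h

lemma volume_half_ge (hn : 0 < n) (he : ∑ i, e i ^ 2 = 1) (hs : s = 1 ∨ s = -1)
    (hη : η ≤ 1 / 4) (hρ : 0 < ρ) :
    (ρ / (2 * n)) ^ n ≤ (volume (half e s (η * ρ) ρ)).toReal := by
  have hn' : (0:ℝ) < n := by exact_mod_cast hn
  have hn1 : (1:ℝ) ≤ n := by exact_mod_cast hn
  set r : ℝ := ρ / (4 * n) with hr
  have hr0 : 0 < r := by positivity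
  have hrn : n * r = ρ / 4 := by rw [hr]; field_simp
  have hr4 : r ≤ ρ / 4 := by nlinarith
  set p : Fin n → ℝ := fun i => s * (ρ / 2) * e i with hp
  have hs1 : |s| = 1 := by rcases hs with h | h <;> simp [h]
  have hs2 : s * s = 1 := by rcases hs with h | h <;> simp [h]
  have hsub : Icc (fun i => p i - r) (fun i => p i + r) ⊆ half e s (η * ρ) ρ := by
    intro x hx
    have hx1 : ∀ i, |x i - p i| ≤ r := fun i => by
      rw [abs_le]
      have a1 := hx.1 i; have a2 := hx.2 i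
      simp only at a1 a2
      constructor <;> linarith
    refine ⟨mem_box.mpr fun i => ?_, ?_⟩
    · have h1 : |x i| ≤ |x i - p i| + |p i| := by
        have := abs_add_le (x i - p i) (p i); simpa using this
      have h2 : |p i| ≤ ρ / 2 := by
        simp only [hp]
        rw [abs_mul, abs_mul, hs1, one_mul, abs_of_pos (by positivity : (0:ℝ) < ρ / 2)]
        exact mul_le_of_le_one_right (by positivity) (sum_abs_le he i)
      have := hx1 i
      linarith
    · have h1 : s * ∑ i, e i * x i = ρ / 2 + s * ∑ i, e i * (x i - p i) := by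
        have h2 : ∑ i, e i * x i = ∑ i, e i * (x i - p i) + s * (ρ / 2) * ∑ i, e i ^ 2 := by
          rw [Finset.mul_sum, ← Finset.sum_add_distrib]
          exact Finset.sum_congr rfl fun i _ => by simp only [hp]; ring
        rw [h2, he]
        have : s * (∑ i, e i * (x i - p i) + s * (ρ / 2) * 1)
            = (s * s) * (ρ / 2) + s * ∑ i, e i * (x i - p i) := by ring
        rw [this, hs2, one_mul]
      have h3 : |s * ∑ i, e i * (x i - p i)| ≤ ρ / 4 := by
        rw [abs_mul, hs1, one_mul]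
        refine (Finset.abs_sum_le_sum_abs _ _).trans ?_
        have h4 : ∀ i ∈ (Finset.univ : Finset (Fin n)), |e i * (x i - p i)| ≤ r := by
          intro i _
          rw [abs_mul]
          calc |e i| * |x i - p i| ≤ 1 * r :=
            mul_le_mul (sum_abs_le he i) (hx1 i) (abs_nonneg _) zero_le_one
            _ = r := one_mul r
        refine (Finset.sum_le_sum h4).trans (le_of_eq ?_)
        simp only [Finset.sum_const, Finset.card_univ, Fintype.card_fin, nsmul_eq_mul]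
        exact hrn
      have h5 := (abs_le.mp h3).1
      have h6 : η * ρ ≤ ρ / 4 := by nlinarith
      linarith
  have hvol : (volume (Icc (fun i => p i - r) (fun i => p i + r))).toReal = (ρ / (2 * n)) ^ n := by
    rw [Real.volume_Icc_pi_toReal (fun i => by simp only; linarith)]
    have : ∀ i, (p i + r) - (p i - r) = ρ / (2 * n) := by
      intro i; rw [hr]; field_simp; ring
    simp_rw [this]
    rw [Finset.prod_const, Finset.card_univ, Fintype.card_fin]
  rw [← hvol]
  exact ENNReal.toReal_mono (volume_lt_top_of_box (half_subset _ _ _ _)).ne (measure_mono hsub)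

lemma gn_Ps (hu : Sol u) (x : Fin n → ℝ) :
    gn (fun x => Ps (u x)) x = psi u x / Real.sqrt 2 * gn u x := by
  have hd : DifferentiableAt ℝ u x := hu.c2.differentiable (by norm_num) x
  unfold gn
  simp_rw [pd_Ps hd, mul_pow]
  rw [← Finset.mul_sum, Real.sqrt_mul (sq_nonneg _), Real.sqrt_sq]
  · rfl
  · exact div_nonneg (hu.psi_nonneg x) sqrt2_pos.le

lemma abs_Ps_sub_le {a b : ℝ} (ha : |a| ≤ 1) (hb : |b| ≤ 1) : |Ps a - Ps b| ≤ |a - b| := by
  have e : Ps a - Ps b = (a - b) * (1 - (a ^ 2 + a * b + b ^ 2) / 3) / Real.sqrt 2 := by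
    unfold Ps; ring
  rw [e, abs_div, abs_mul, abs_of_pos sqrt2_pos]
  have h1 := abs_le.mp ha
  have h2 := abs_le.mp hb
  have h3 : |1 - (a ^ 2 + a * b + b ^ 2) / 3| ≤ 1 := by
    rw [abs_le]; constructor <;> nlinarith [sq_nonneg (a + b), sq_nonneg (a - b), sq_nonneg a, sq_nonneg b]
  have h4 : |a - b| * |1 - (a ^ 2 + a * b + b ^ 2) / 3| ≤ |a - b| :=
    mul_le_of_le_one_right (abs_nonneg _) h3
  exact (div_le_self (mul_nonneg (abs_nonneg _) (abs_nonneg _)) one_le_sqrt2).trans h4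

/-- Values on one half box. -/
theorem half_const (hn : 0 < n) (hu : Sol u) (he : ∑ i, e i ^ 2 = 1) (hs : s = 1 ∨ s = -1)
    (hη : 0 < η) (hη' : η ≤ 1 / 4) (hρ : 0 < ρ)
    (h1 : ρ * ∫ x in box n ρ, psi u x / Real.sqrt 2 * gt e u x ≤ δ * ρ ^ n)
    (h2 : ∫ x in box n ρ, psi u x / Real.sqrt 2 * |∑ i, x i * pd i u x| ≤ δ * ρ ^ n)
    (h3 : ∫ x in box n ρ, psi u x ≤ δ * ρ ^ n) :
    ∃ σ : ℝ, (σ = 1 ∨ σ = -1) ∧ ∫ x in half e s (η * ρ) ρ, |Ps σ - Ps (u x)|
      ≤ ((8 * n) ^ n * (2 * n) * (n + 2) / η + 1) * δ * ρ ^ n := by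
  have hu1 : ContDiff ℝ 1 u := hu.c2.of_le (by norm_num)
  have hn' : (0:ℝ) < n := by exact_mod_cast hn
  set K := half e s (η * ρ) ρ with hKdef
  have hKρ : K ⊆ box n ρ := half_subset _ _ _ _
  have hKm : MeasurableSet K := measurableSet_half _ _ _ _
  have hs1 : |s| = 1 := by rcases hs with h | h <;> simp [h]
  obtain ⟨σ, hσ, hP⟩ := poinc_const hu (convex_half e s (η * ρ) ρ) hKm hρ.le hKρ
  refine ⟨σ, hσ, ?_⟩
  set V := (volume K).toReal with hV
  set X := ∫ x in K, |Ps σ - Ps (u x)| with hX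
  have hVge : (ρ / (2 * n)) ^ n ≤ V := volume_half_ge hn he hs hη' hρ
  have hVpos : 0 < V := lt_of_lt_of_le (by positivity) hVge
  have cm : Continuous (fun x => psi u x / Real.sqrt 2) := hu.psi_contDiff.continuous.div_const _
  have cgt : Continuous (fun x => psi u x / Real.sqrt 2 * gt e u x) := cm.mul (continuous_gt hu1 e)
  have crd : Continuous (fun x : Fin n → ℝ => ∑ i, x i * pd i u x) :=
    continuous_finsetSum _ fun i _ => (continuous_apply i).mul (continuous_pd hu1)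
  have cr : Continuous (fun x => psi u x / Real.sqrt 2 * |∑ i, x i * pd i u x|) := cm.mul crd.abs
  have m0 : ∀ x, 0 ≤ psi u x / Real.sqrt 2 := fun x => div_nonneg (hu.psi_nonneg x) sqrt2_pos.le
  -- gradient bound on K
  have hgrad : ∫ x in K, gn (fun x => Ps (u x)) x ≤ (n + 2) / η * δ * ρ ^ n / ρ := by
    have hpt : ∀ x ∈ K, gn (fun x => Ps (u x)) x
        ≤ (1 / (η * ρ)) * (psi u x / Real.sqrt 2 * |∑ i, x i * pd i u x|)
          + (n / η + 1) * (psi u x / Real.sqrt 2 * gt e u x) := by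
      intro x hx
      rw [gn_Ps hu]
      have a1 := gn_le_add he u x
      have a2 := rd_sub_le he u hρ.le (hKρ hx)
      have a3 : η * ρ ≤ |∑ i, e i * x i| := by
        refine hx.2.trans ?_
        refine (le_abs_self _).trans ?_
        rw [abs_mul, hs1, one_mul]
      have a4 : η * ρ * |dd e u x| ≤ |∑ i, x i * pd i u x| + n * ρ * gt e u x := by
        rw [abs_mul] at a2
        exact (mul_le_mul_of_nonneg_right a3 (abs_nonneg _)).trans a2
      have hηρ : 0 < η * ρ := mul_pos hη hρ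
      have a5 : |dd e u x| ≤ (1 / (η * ρ)) * |∑ i, x i * pd i u x| + n / η * gt e u x := by
        have : |dd e u x| ≤ (|∑ i, x i * pd i u x| + n * ρ * gt e u x) / (η * ρ) := by
          rw [le_div_iff₀ hηρ]; linarith
        refine this.trans (le_of_eq ?_)
        field_simp
      have a6 : gn u x ≤ (1 / (η * ρ)) * |∑ i, x i * pd i u x| + (n / η + 1) * gt e u x := by
        linarith
      refine (mul_le_mul_of_nonneg_left a6 (m0 x)).trans (le_of_eq ?_)
      ring
    have cgn : Continuous (gn (fun x => Ps (u x))) := continuous_gn (contDiff_Ps.comp hu1)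
    have i1 := integrableOn_box (K := K) cr hKρ
    have i2 := integrableOn_box (K := K) cgt hKρ
    have b1 : ∫ x in K, gn (fun x => Ps (u x)) x
        ≤ ∫ x in K, ((1 / (η * ρ)) * (psi u x / Real.sqrt 2 * |∑ i, x i * pd i u x|)
          + (n / η + 1) * (psi u x / Real.sqrt 2 * gt e u x)) :=
      setIntegral_mono_on (integrableOn_box cgn hKρ) ((i1.const_mul _).add (i2.const_mul _))
        hKm hpt
    rw [integral_add (i1.const_mul _) (i2.const_mul _), integral_const_mul,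
      integral_const_mul] at b1
    have b2 : ∫ x in K, psi u x / Real.sqrt 2 * |∑ i, x i * pd i u x| ≤ δ * ρ ^ n := by
      refine le_trans ?_ h2
      exact setIntegral_mono_set (integrableOn_box cr subset_rfl)
        (Eventually.of_forall fun x => mul_nonneg (m0 x) (abs_nonneg _)) hKρ.eventuallyLE
    have b3 : ρ * ∫ x in K, psi u x / Real.sqrt 2 * gt e u x ≤ δ * ρ ^ n := by
      refine le_trans (mul_le_mul_of_nonneg_left ?_ hρ.le) h1
      exact setIntegral_mono_set (integrableOn_box cgt subset_rfl)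
        (Eventually.of_forall fun x => mul_nonneg (m0 x) (gt_nonneg _ _ _)) hKρ.eventuallyLE
    have b4 : ∫ x in K, psi u x / Real.sqrt 2 * gt e u x ≤ δ * ρ ^ n / ρ := by
      rw [le_div_iff₀ hρ]; linarith
    have hη1 : 1 ≤ 1 / η := by rw [le_div_iff₀ hη]; linarith
    have hδρ : 0 ≤ δ * ρ ^ n / ρ := le_trans (integral_nonneg fun x =>
      mul_nonneg (m0 x) (gt_nonneg _ _ _)) b4
    calc ∫ x in K, gn (fun x => Ps (u x)) x
        ≤ 1 / (η * ρ) * (δ * ρ ^ n) + (n / η + 1) * (δ * ρ ^ n / ρ) := by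
          refine b1.trans (add_le_add ?_ ?_)
          · exact mul_le_mul_of_nonneg_left b2 (by positivity)
          · exact mul_le_mul_of_nonneg_left b4 (by positivity)
      _ ≤ 1 / η * (δ * ρ ^ n / ρ) + (n / η + 1 / η) * (δ * ρ ^ n / ρ) := by
          apply add_le_add
          · apply le_of_eq; field_simp
          · exact mul_le_mul_of_nonneg_right (by linarith) hδρ
      _ = (n + 2) / η * δ * ρ ^ n / ρ := by ring
  have hψ : ∫ x in K, psi u x ≤ δ * ρ ^ n := by
    refine le_trans ?_ h3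
    exact setIntegral_mono_set (integrableOn_box hu.psi_contDiff.continuous subset_rfl)
      (Eventually.of_forall fun x => hu.psi_nonneg x) hKρ.eventuallyLE
  have hX1 : V * X ≤ V * ((8 * n) ^ n * (2 * n * (ρ * ((n + 2) / η * δ * ρ ^ n / ρ))) + δ * ρ ^ n) := by
    refine hP.trans ?_
    rw [mul_add]
    apply add_le_add
    · have c1 : (4 * ρ) ^ n = (8 * n) ^ n * (ρ / (2 * n)) ^ n := by
        rw [← mul_pow]; congr 1; field_simp; ring
      rw [c1]
      have c2 : 0 ≤ ∫ x in K, gn (fun x => Ps (u x)) x := integral_nonneg fun _ => gn_nonneg _ _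
      calc (8 * (n:ℝ)) ^ n * (ρ / (2 * n)) ^ n * (2 * ρ * n * ∫ x in K, gn (fun x => Ps (u x)) x)
          = (ρ / (2 * n)) ^ n * ((8 * (n:ℝ)) ^ n * (2 * n * (ρ * ∫ x in K, gn (fun x => Ps (u x)) x))) := by
            ring
        _ ≤ V * ((8 * (n:ℝ)) ^ n * (2 * n * (ρ * ∫ x in K, gn (fun x => Ps (u x)) x))) :=
            mul_le_mul_of_nonneg_right hVge (by positivity)
        _ ≤ V * ((8 * (n:ℝ)) ^ n * (2 * n * (ρ * ((n + 2) / η * δ * ρ ^ n / ρ)))) := by
            gcongr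
    · exact mul_le_mul_of_nonneg_left hψ hVpos.le
  have hX2 := le_of_mul_le_mul_left hX1 hVpos
  refine hX2.trans (le_of_eq ?_)
  field_simp

/-- The four targets. -/
def Tgt (e : Fin n → ℝ) (t : (Fin n → ℝ) → ℝ) : Prop :=
  t = (fun _ => 1) ∨ t = (fun _ => -1) ∨ t = lay e 0 ∨ t = lay (fun i => - e i) 0

lemma lay_neg (e : Fin n → ℝ) (x : Fin n → ℝ) : lay (fun i => - e i) 0 x = - lay e 0 x := by
  unfold lay
  have : ∑ i, -e i * x i - 0 = -(∑ i, e i * x i - 0) := by
    simp [Finset.sum_neg_distrib]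
  rw [this, neg_div, Real.tanh_neg]

lemma Tgt.abs_le {t : (Fin n → ℝ) → ℝ} (ht : Tgt e t) (x : Fin n → ℝ) : |t x| ≤ 1 := by
  rcases ht with h | h | h | h <;> subst h
  · simp
  · simp
  · exact (abs_lay_lt _ _ _).le
  · exact (abs_lay_lt _ _ _).le

lemma Tgt.continuous {t : (Fin n → ℝ) → ℝ} (ht : Tgt e t) : Continuous t := by
  rcases ht with h | h | h | h <;> subst h
  · exact continuous_const
  · exact continuous_const
  · exact (contDiff_lay (k := 1) _ _).continuous
  · exact (contDiff_lay (k := 1) _ _).continuous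

lemma lay_near {s : ℝ} (hs : s = 1 ∨ s = -1) (hη : 0 < η) (hx : η ≤ s * ∑ i, e i * x i) :
    |s - lay e 0 x| ≤ 2 / η := by
  have h2 : Real.sqrt 2 ≤ 2 := by
    rw [Real.sqrt_le_left (by norm_num)]; norm_num
  have key : ∀ t : ℝ, η ≤ t → |1 - Real.tanh (t / Real.sqrt 2)| ≤ 2 / η := by
    intro t ht
    have h0 : 0 < t / Real.sqrt 2 := div_pos (by linarith) sqrt2_pos
    have h1 := one_sub_tanh_le h0.le
    rw [abs_of_nonneg (by linarith [Real.tanh_lt_one (t / Real.sqrt 2)])]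
    refine h1.trans ?_
    rw [div_le_div_iff₀ (by linarith) hη, one_mul]
    have h3 : t / 2 ≤ t / Real.sqrt 2 := div_le_div_of_nonneg_left (by linarith) sqrt2_pos h2
    linarith
  unfold lay
  rcases hs with h | h <;> subst h
  · rw [one_mul] at hx
    simpa using key _ hx
  · have := key (-(∑ i, e i * x i)) (by linarith)
    rw [neg_div, Real.tanh_neg] at this
    rw [← abs_neg]
    simp only [sub_zero]
    convert this using 2
    ring

/-- **Unoriented flatness gives closeness to one of the four targets.** -/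
theorem flat_tgt (hn : 0 < n) (hu : Sol u) (he : ∑ i, e i ^ 2 = 1)
    (hη : 0 < η) (hη' : η ≤ 1 / 4) (hρ : 0 < ρ)
    (h1 : ρ * ∫ x in box n ρ, psi u x / Real.sqrt 2 * gt e u x ≤ δ * ρ ^ n)
    (h2 : ∫ x in box n ρ, psi u x / Real.sqrt 2 * |∑ i, x i * pd i u x| ≤ δ * ρ ^ n)
    (h3 : ∫ x in box n ρ, psi u x ≤ δ * ρ ^ n) :
    ∃ t, Tgt e t ∧ ∫ x in box n ρ, |Ps (t x) - Ps (u x)|
      ≤ (2 * (((8 * n) ^ n * (2 * n) * (n + 2) / η + 1) * δ) + 2 ^ n * (4 / (η * ρ) + 4 * n * η))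
        * ρ ^ n := by
  classical
  have hn' : (0:ℝ) < n := by exact_mod_cast hn
  have hηρ : 0 < η * ρ := mul_pos hη hρ
  obtain ⟨σp, hσp, hp⟩ := half_const hn hu he (Or.inl rfl) hη hη' hρ h1 h2 h3
  obtain ⟨σm, hσm, hm⟩ := half_const hn hu he (Or.inr rfl) hη hη' hρ h1 h2 h3
  set E : ℝ := ((8 * n) ^ n * (2 * n) * (n + 2) / η + 1) * δ * ρ ^ n with hE
  -- choice of the target
  obtain ⟨t, ht, htp, htm⟩ : ∃ t, Tgt e t ∧
      (∀ x ∈ half e 1 (η * ρ) ρ, |Ps (t x) - Ps σp| ≤ 2 / (η * ρ)) ∧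
      (∀ x ∈ half e (-1) (η * ρ) ρ, |Ps (t x) - Ps σm| ≤ 2 / (η * ρ)) := by
    have hpos : 0 ≤ 2 / (η * ρ) := by positivity
    rcases hσp with h | h <;> rcases hσm with h' | h' <;> subst h <;> subst h'
    · exact ⟨fun _ => 1, Or.inl rfl, fun x _ => by simpa using hpos, fun x _ => by simpa using hpos⟩
    · refine ⟨lay e 0, Or.inr (Or.inr (Or.inl rfl)), fun x hx => ?_, fun x hx => ?_⟩
      · refine (abs_Ps_sub_le (abs_lay_lt _ _ _).le (by simp)).trans ?_
        rw [abs_sub_comm]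
        exact lay_near (Or.inl rfl) hηρ hx.2
      · refine (abs_Ps_sub_le (abs_lay_lt _ _ _).le (by simp)).trans ?_
        rw [abs_sub_comm]
        exact lay_near (Or.inr rfl) hηρ hx.2
    · refine ⟨lay (fun i => - e i) 0, Or.inr (Or.inr (Or.inr rfl)), fun x hx => ?_, fun x hx => ?_⟩
      · refine (abs_Ps_sub_le (abs_lay_lt _ _ _).le (by simp)).trans ?_
        rw [lay_neg, show -lay e 0 x - -1 = 1 - lay e 0 x by ring]
        exact lay_near (Or.inl rfl) hηρ hx.2
      · refine (abs_Ps_sub_le (abs_lay_lt _ _ _).le (by simp)).trans ?_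
        rw [lay_neg, show -lay e 0 x - 1 = -1 - lay e 0 x by ring]
        exact lay_near (Or.inr rfl) hηρ hx.2
    · exact ⟨fun _ => -1, Or.inr (Or.inl rfl), fun x _ => by simpa using hpos,
        fun x _ => by simpa using hpos⟩
  refine ⟨t, ht, ?_⟩
  have cF : Continuous (fun x => |Ps (t x) - Ps (u x)|) :=
    ((continuous_Ps.comp ht.continuous).sub (continuous_Ps.comp hu.c2.continuous)).abs
  have hF0 : ∀ x, 0 ≤ |Ps (t x) - Ps (u x)| := fun _ => abs_nonneg _
  have hF2 : ∀ x, |Ps (t x) - Ps (u x)| ≤ 2 := by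
    intro x
    refine (abs_Ps_sub_le (ht.abs_le x) (hu.bd x)).trans ((abs_sub _ _).trans ?_)
    linarith [ht.abs_le x, hu.bd x]
  set Kp := half e 1 (η * ρ) ρ with hKp
  set Km := half e (-1) (η * ρ) ρ with hKm
  set S := slab e (η * ρ) ρ with hS
  have mp : MeasurableSet Kp := measurableSet_half _ _ _ _
  have mm : MeasurableSet Km := measurableSet_half _ _ _ _
  have mS : MeasurableSet S := measurableSet_slab _ _ _
  have hbox : box n ρ ⊆ Kp ∪ (Km ∪ S) := by
    intro x hx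
    by_cases a1 : η * ρ ≤ 1 * ∑ i, e i * x i
    · exact Or.inl ⟨hx, a1⟩
    · by_cases a2 : η * ρ ≤ -1 * ∑ i, e i * x i
      · exact Or.inr (Or.inl ⟨hx, a2⟩)
      · right; right
        refine ⟨hx, ?_⟩
        rw [_root_.abs_le]
        constructor <;> linarith
  have iF : ∀ {K : Set (Fin n → ℝ)}, K ⊆ box n ρ →
      IntegrableOn (fun x => |Ps (t x) - Ps (u x)|) K := fun h => integrableOn_box cF h
  have hKpb : Kp ⊆ box n ρ := half_subset _ _ _ _
  have hKmb : Km ⊆ box n ρ := half_subset _ _ _ _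
  have hSb : S ⊆ box n ρ := fun x hx => hx.1
  have hsplit : ∫ x in box n ρ, |Ps (t x) - Ps (u x)|
      ≤ (∫ x in Kp, |Ps (t x) - Ps (u x)|) + ((∫ x in Km, |Ps (t x) - Ps (u x)|)
        + ∫ x in S, |Ps (t x) - Ps (u x)|) := by
    have u1 : ∀ {A B : Set (Fin n → ℝ)}, A ⊆ box n ρ → B ⊆ box n ρ → MeasurableSet A →
        MeasurableSet B → ∫ x in A ∪ B, |Ps (t x) - Ps (u x)|
          ≤ (∫ x in A, |Ps (t x) - Ps (u x)|) + ∫ x in B, |Ps (t x) - Ps (u x)| := by
      intro A B hA hB mA mB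
      have : A ∪ B = A ∪ (B \ A) := by simp
      rw [this, setIntegral_union disjoint_sdiff_right (mB.diff mA) (iF hA)
        (iF (diff_subset.trans hB))]
      gcongr 1
      exact setIntegral_mono_set (iF hB) (Eventually.of_forall hF0) diff_subset.eventuallyLE
    have s1 : ∫ x in box n ρ, |Ps (t x) - Ps (u x)| ≤ ∫ x in Kp ∪ (Km ∪ S), |Ps (t x) - Ps (u x)| :=
      setIntegral_mono_set (iF (union_subset hKpb (union_subset hKmb hSb)))
        (Eventually.of_forall hF0) hbox.eventuallyLE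
    refine s1.trans ((u1 hKpb (union_subset hKmb hSb) mp (mm.union mS)).trans ?_)
    have := u1 hKmb hSb mm mS
    linarith
  have hvolbox : (volume (box n ρ)).toReal = (2 * ρ) ^ n := volume_box hρ.le
  have hpart : ∀ {K : Set (Fin n → ℝ)} {σ : ℝ}, K ⊆ box n ρ → MeasurableSet K →
      (∀ x ∈ K, |Ps (t x) - Ps σ| ≤ 2 / (η * ρ)) → (∫ x in K, |Ps σ - Ps (u x)| ≤ E) →
      ∫ x in K, |Ps (t x) - Ps (u x)| ≤ E + 2 / (η * ρ) * (2 * ρ) ^ n := by
    intro K σ hKb mK hK1 hK2
    have i1 : IntegrableOn (fun x => |Ps σ - Ps (u x)|) K :=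
      integrableOn_box (continuous_const.sub (continuous_Ps.comp hu.c2.continuous)).abs hKb
    have i2 : IntegrableOn (fun _ : Fin n → ℝ => 2 / (η * ρ)) K :=
      integrableOn_box continuous_const hKb
    have b1 : ∫ x in K, |Ps (t x) - Ps (u x)| ≤ ∫ x in K, (|Ps σ - Ps (u x)| + 2 / (η * ρ)) := by
      apply setIntegral_mono_on (iF hKb) (i1.add i2) mK
      intro x hx
      simp only [Pi.add_apply]
      have := hK1 x hx
      have h3 : |Ps (t x) - Ps (u x)| ≤ |Ps (t x) - Ps σ| + |Ps σ - Ps (u x)| := abs_sub_le _ _ _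
      linarith
    rw [integral_add i1 i2, setIntegral_const, smul_eq_mul] at b1
    have b2 : (volume K).toReal ≤ (2 * ρ) ^ n := by
      rw [← hvolbox]
      exact ENNReal.toReal_mono (isCompact_box _).measure_lt_top.ne (measure_mono hKb)
    have b3 : (volume.real K) * (2 / (η * ρ)) ≤ 2 / (η * ρ) * (2 * ρ) ^ n := by
      rw [mul_comm]
      exact mul_le_mul_of_nonneg_left b2 (by positivity)
    linarith
  have hSint : ∫ x in S, |Ps (t x) - Ps (u x)| ≤ 2 * (n * (2 * (η * ρ)) * (2 * ρ) ^ (n - 1)) := by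
    have i2 : IntegrableOn (fun _ : Fin n → ℝ => (2:ℝ)) S := integrableOn_box continuous_const hSb
    have b1 : ∫ x in S, |Ps (t x) - Ps (u x)| ≤ ∫ x in S, (2:ℝ) :=
      setIntegral_mono (iF hSb) i2 hF2
    rw [setIntegral_const, smul_eq_mul] at b1
    have b2 := volume_slab_le hn he hηρ.le hρ.le
    have b3 : volume.real S = (volume S).toReal := rfl
    rw [b3] at b1
    linarith
  have hpow : (2 * ρ) ^ n = (2 * ρ) ^ (n - 1) * (2 * ρ) := by
    rw [← pow_succ, Nat.sub_add_cancel hn]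
  have r1 := hpart hKpb mp htp hp
  have r2 := hpart hKmb mm htm hm
  have r3 : 2 * (n * (2 * (η * ρ)) * (2 * ρ) ^ (n - 1)) = 2 * n * η * (2 * ρ) ^ n := by
    rw [hpow]; ring
  rw [r3] at hSint
  have r4 : (2 * ρ) ^ n = 2 ^ n * ρ ^ n := mul_pow _ _ _
  rw [r4] at r1 r2 hSint
  have hpn : 0 ≤ 2 ^ n * ρ ^ n := by positivity
  calc ∫ x in box n ρ, |Ps (t x) - Ps (u x)|
      ≤ (E + 2 / (η * ρ) * (2 ^ n * ρ ^ n)) + ((E + 2 / (η * ρ) * (2 ^ n * ρ ^ n))
        + 2 * n * η * (2 ^ n * ρ ^ n)) := by linarith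
    _ ≤ (E + 2 / (η * ρ) * (2 ^ n * ρ ^ n)) + ((E + 2 / (η * ρ) * (2 ^ n * ρ ^ n))
        + 4 * n * η * (2 ^ n * ρ ^ n)) := by
        have : 0 ≤ n * η * (2 ^ n * ρ ^ n) := by positivity
        linarith
    _ = _ := by rw [hE]; ring

end Vale.Agent.P134.H688
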