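import Vale.Agent.P134.H688.Flat
import Vale.Agent.P134.M4.Assembly
import Vale.Agent.P134.H787.Rot
import Vale.Agent.P134.H891.Mono
import Mathlib.Analysis.SpecialFunctions.ImproperIntegrals

set_option linter.all false

/-! The weighted energy of a layer. -/

open MeasureTheory Filter Topology Set

namespace Vale.Agent.P134.H688

open Vale.Agent.P134 Vale.Agent.P134.SM
open Vale.Agent.P134.H891 (Psi ph mm pp ph_nonneg mm_nonneg ph_contDiff ph_hasCompactSupport
  hasDerivAt_Psi contDiff_Psi Psi_neg_one)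
open Vale.Agent.P134.H787 (LI rot rot_dot integral_rot exists_rot en_comp_rot rho_rot)

variable {n : ℕ} {u V φ f η : (Fin n → ℝ) → ℝ} {x : Fin n → ℝ}

lemma Psi_eq_Ps (t : ℝ) : Psi t = Ps t + (2 / 3) / Real.sqrt 2 := by
  unfold Psi Ps; ring

/-- Energy density of the layer as a function of one variable. -/
noncomputable def lh (s : ℝ) : ℝ := (1 - Real.tanh (s / Real.sqrt 2) ^ 2) ^ 2 / 2

lemma lh_nonneg (s : ℝ) : 0 ≤ lh s := by unfold lh; positivity

lemma hasDerivAt_Psi_tanh (s : ℝ) :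
    HasDerivAt (fun s => Psi (Real.tanh (s / Real.sqrt 2))) (lh s) s := by
  have h1 : HasDerivAt (fun s : ℝ => s / Real.sqrt 2) (1 / Real.sqrt 2) s :=
    (hasDerivAt_id s).div_const _
  have h2 := (hasDerivAt_Psi (Real.tanh (s / Real.sqrt 2))).comp s
    ((hasDerivAt_tanh (s / Real.sqrt 2)).comp s h1)
  refine h2.congr_deriv ?_
  unfold lh
  have h3 : Real.sqrt 2 * Real.sqrt 2 = 2 := Real.mul_self_sqrt (by norm_num)
  have h4 := sqrt2_pos.ne'
  field_simp
  rw [Real.sq_sqrt (by norm_num)]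
  ring

lemma continuous_lh : Continuous lh := by
  unfold lh
  have : Continuous Real.tanh := (contDiff_tanh (k := 0)).continuous
  fun_prop

lemma one_sub_tanh_sq_le (t : ℝ) : 1 - Real.tanh t ^ 2 ≤ 2 / (1 + |t|) := by
  have key : ∀ t : ℝ, 0 ≤ t → 1 - Real.tanh t ^ 2 ≤ 2 / (1 + |t|) := by
    intro t ht
    have h1 := one_sub_tanh_le ht
    have h2 := Real.tanh_lt_one t
    have h3 := Real.neg_one_lt_tanh t
    rw [abs_of_nonneg ht]
    have h4 : 1 - Real.tanh t ^ 2 = (1 - Real.tanh t) * (1 + Real.tanh t) := by ring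
    rw [h4]
    calc (1 - Real.tanh t) * (1 + Real.tanh t) ≤ (1 / (1 + t)) * 2 :=
          mul_le_mul h1 (by linarith) (by linarith) (by positivity)
      _ = 2 / (1 + t) := by ring
  rcases le_total 0 t with h | h
  · exact key t h
  · have := key (-t) (by linarith)
    rwa [Real.tanh_neg, neg_sq, abs_neg] at this

lemma lh_le (s : ℝ) : lh s ≤ 4 * (1 + s ^ 2)⁻¹ := by
  have h1 := one_sub_tanh_sq_le (s / Real.sqrt 2)
  have h2 : 0 ≤ 1 - Real.tanh (s / Real.sqrt 2) ^ 2 := by
    have := Real.tanh_sq_lt_one (s / Real.sqrt 2); linarith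
  unfold lh
  set a := |s / Real.sqrt 2| with ha
  have ha0 : 0 ≤ a := abs_nonneg _
  have ha2 : a ^ 2 = s ^ 2 / 2 := by
    rw [ha, sq_abs, div_pow, Real.sq_sqrt (by norm_num)]
  have h3 : (1 - Real.tanh (s / Real.sqrt 2) ^ 2) ^ 2 ≤ (2 / (1 + a)) ^ 2 :=
    pow_le_pow_left₀ h2 h1 2
  have h4 : (2 / (1 + a)) ^ 2 ≤ 8 * (1 + s ^ 2)⁻¹ := by
    rw [div_pow, ← div_eq_mul_inv, div_le_div_iff₀ (by positivity) (by positivity)]
    nlinarith
  linarith

lemma integrable_lh : Integrable lh := by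
  refine (integrable_inv_one_add_sq.const_mul 4).mono' continuous_lh.aestronglyMeasurable ?_
  filter_upwards with s
  rw [Real.norm_eq_abs, abs_of_nonneg (lh_nonneg s)]
  exact lh_le s

lemma tendsto_tanh_atTop : Tendsto Real.tanh atTop (𝓝 1) := by
  have h1 : Tendsto (fun t : ℝ => 1 / (1 + t)) atTop (𝓝 0) :=
    tendsto_const_nhds.div_atTop (tendsto_const_nhds.add_atTop tendsto_id)
  have h2 : Tendsto (fun t : ℝ => 1 - 1 / (1 + t)) atTop (𝓝 1) := by
    simpa using tendsto_const_nhds.sub h1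
  refine tendsto_of_tendsto_of_tendsto_of_le_of_le' h2 tendsto_const_nhds ?_ ?_
  · filter_upwards [eventually_ge_atTop 0] with t ht
    have := one_sub_tanh_le ht
    linarith
  · exact Eventually.of_forall fun t => (Real.tanh_lt_one t).le

lemma tendsto_tanh_atBot : Tendsto Real.tanh atBot (𝓝 (-1)) := by
  have h := (tendsto_tanh_atTop.comp tendsto_neg_atBot_atTop).neg
  refine h.congr fun t => ?_
  simp [Real.tanh_neg]

lemma integral_lh : ∫ s, lh s = Psi 1 := by
  have c : Continuous Psi := (contDiff_Psi (k := 0)).continuous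
  have h1 : Tendsto (fun s : ℝ => s / Real.sqrt 2) atTop atTop :=
    tendsto_id.atTop_div_const sqrt2_pos
  have h2 : Tendsto (fun s : ℝ => s / Real.sqrt 2) atBot atBot :=
    tendsto_id.atBot_div_const sqrt2_pos
  rw [integral_of_hasDerivAt_of_tendsto hasDerivAt_Psi_tanh integrable_lh
    ((c.tendsto _).comp (tendsto_tanh_atBot.comp h2))
    ((c.tendsto _).comp (tendsto_tanh_atTop.comp h1)), Psi_neg_one, sub_zero]

lemma en_lay_single (m : ℕ) (x : Fin (m + 1) → ℝ) :
    en (lay (Pi.single 0 1) 0) x = lh (x 0) := by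
  rw [en_lay (by simp [Pi.single_apply])]
  unfold lh lay
  simp [Pi.single_apply]

lemma ph_cons_le {m : ℕ} {R : ℝ} (s : ℝ) (y : Fin m → ℝ) :
    ph R (Fin.cons s y : Fin (m + 1) → ℝ) ≤ ph R y := by
  unfold ph
  apply pow_le_pow_left₀ (mm_nonneg _ _)
  unfold mm pp
  apply max_le_max _ le_rfl
  have h1 : esq (Fin.cons s y : Fin (m + 1) → ℝ) = s ^ 2 + esq y := by
    unfold esq
    rw [Fin.sum_univ_succ]
    simp
  rw [h1]
  have h2 : esq y / R ^ 2 ≤ (s ^ 2 + esq y) / R ^ 2 := by
    apply div_le_div_of_nonneg_right _ (sq_nonneg _)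
    nlinarith [sq_nonneg s]
  linarith

theorem lay_energy_le {m : ℕ} {e : Fin (m + 1) → ℝ} (he : ∑ i, e i ^ 2 = 1) {R : ℝ} (hR : 0 < R) :
    ∫ x, ph R x * en (lay e 0) x ≤ Psi 1 * ∫ y : Fin m → ℝ, ph R y := by
  obtain ⟨L, hL⟩ := exists_rot (0 : Fin (m + 1)) he
  have hd : Differentiable ℝ (lay e 0) := (contDiff_lay (k := 1) e 0).differentiable (by norm_num)
  have h1 : ∫ x, ph R x * en (lay e 0) x = ∫ x : Fin (m + 1) → ℝ, ph R x * lh (x 0) := by
    rw [← integral_rot L]
    congr 1; ext x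
    have e1 : (fun y => lay e 0 (rot L y)) = lay (Pi.single 0 1) 0 := by
      funext y
      unfold lay
      rw [← hL, rot_dot]
    have e2 : en (lay e 0) (rot L x) = lh (x 0) := by
      rw [← en_comp_rot hd L, e1, en_lay_single]
    have e3 : ph R (rot L x) = ph R x := by
      unfold ph mm
      have : esq (rot L x) = esq x := rho_rot L x
      rw [this]
    rw [e2, e3]
  rw [h1]
  set em := MeasurableEquiv.piFinSuccAbove (fun _ : Fin (m + 1) => ℝ) 0 with hem
  have hmp : MeasurePreserving em volume volume := volume_preserving_piFinSuccAbove (fun _ => ℝ) 0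
  have h2 : ∫ x : Fin (m + 1) → ℝ, ph R x * lh (x 0)
      = ∫ p : ℝ × (Fin m → ℝ), ph R (Fin.cons p.1 p.2 : Fin (m + 1) → ℝ) * lh p.1 := by
    rw [← hmp.integral_comp em.measurableEmbedding]
    congr 1; ext x
    have e1 : (em x).1 = x 0 := rfl
    have e2 : (Fin.cons (em x).1 (em x).2 : Fin (m + 1) → ℝ) = x := by
      rw [e1]
      funext i
      refine Fin.cases ?_ (fun j => ?_) i
      · simp
      · simp [hem, MeasurableEquiv.piFinSuccAbove]
        rfl
    rw [e2, e1]
  rw [h2]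
  have i1 : Integrable (fun p : ℝ × (Fin m → ℝ) => lh p.1 * ph R p.2) := by
    exact integrable_lh.mul_prod
      ((ph_contDiff R).continuous.integrable_of_hasCompactSupport (ph_hasCompactSupport hR))
  have hcc : Continuous (fun p : ℝ × (Fin m → ℝ) => ph R (Fin.cons p.1 p.2 : Fin (m + 1) → ℝ)) := by
    apply (ph_contDiff R).continuous.comp
    apply continuous_pi
    intro i
    refine Fin.cases ?_ (fun j => ?_) i
    · simpa using continuous_fst
    · have h9 : Continuous (fun p : ℝ × (Fin m → ℝ) => p.2 j) :=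
        (continuous_apply j).comp continuous_snd
      exact h9
  have i2 : Integrable (fun p : ℝ × (Fin m → ℝ) =>
      ph R (Fin.cons p.1 p.2 : Fin (m + 1) → ℝ) * lh p.1) := by
    refine i1.mono' (hcc.mul (continuous_lh.comp continuous_fst)).aestronglyMeasurable ?_
    filter_upwards with p
    rw [Real.norm_eq_abs, abs_of_nonneg (mul_nonneg (ph_nonneg _ _) (lh_nonneg _)), mul_comm]
    exact mul_le_mul_of_nonneg_left (ph_cons_le _ _) (lh_nonneg _)
  calc ∫ p : ℝ × (Fin m → ℝ), ph R (Fin.cons p.1 p.2 : Fin (m + 1) → ℝ) * lh p.1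
      ≤ ∫ p : ℝ × (Fin m → ℝ), lh p.1 * ph R p.2 := by
        apply integral_mono i2 i1
        intro p
        simp only
        rw [mul_comm]
        exact mul_le_mul_of_nonneg_left (ph_cons_le _ _) (lh_nonneg _)
    _ = (∫ s, lh s) * ∫ y : Fin m → ℝ, ph R y := by
        rw [← integral_prod_mul]
        rfl
    _ = _ := by rw [integral_lh]

lemma integral_ph (m : ℕ) {R : ℝ} (hR : 0 < R) :
    ∫ y : Fin m → ℝ, ph R y = R ^ m * ∫ y : Fin m → ℝ, ph 1 y := by
  have h := Measure.integral_comp_smul (volume : Measure (Fin m → ℝ)) (fun y => ph R y) R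
  have e1 : ∀ y : Fin m → ℝ, ph R (R • y) = ph 1 y := by
    intro y
    unfold ph mm
    have : esq (R • y) = R ^ 2 * esq y := by
      unfold esq
      rw [Finset.mul_sum]
      exact Finset.sum_congr rfl fun i _ => by simp [mul_pow]
    rw [this, mul_div_cancel_left₀ _ (by positivity)]
    simp
  simp_rw [e1] at h
  rw [Module.finrank_fin_fun, abs_of_pos (by positivity), smul_eq_mul] at h
  rw [h]
  field_simp

end Vale.Agent.P134.H688
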