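import Vale.Agent.P134.H688.Ift
import Mathlib.Analysis.SpecialFunctions.Trigonometric.DerivHyp

set_option linter.all false

/-! The one-dimensional layers and the two-sided energy comparison with a layer. -/

namespace Vale.Agent.P134.H688

open Vale.Agent.P134 MeasureTheory Filter Topology Set

variable {n : ℕ} {u v T φ f g : (Fin n → ℝ) → ℝ} {x e : Fin n → ℝ} {i j q : Fin n}

lemma hasDerivAt_tanh (t : ℝ) : HasDerivAt Real.tanh (1 - Real.tanh t ^ 2) t := by
  have hc : Real.cosh t ≠ 0 := (Real.cosh_pos t).ne'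
  have h := (Real.hasDerivAt_sinh t).div (Real.hasDerivAt_cosh t) hc
  have e1 : (fun t => Real.sinh t / Real.cosh t) = Real.tanh := by
    funext s; exact (Real.tanh_eq_sinh_div_cosh s).symm
  have e2 : (Real.cosh t * Real.cosh t - Real.sinh t * Real.sinh t) / Real.cosh t ^ 2
      = 1 - Real.tanh t ^ 2 := by
    rw [Real.tanh_eq_sinh_div_cosh]; field_simp
  rw [← e2]
  rw [← e1]
  exact h

lemma contDiff_tanh {k : WithTop ℕ∞} : ContDiff ℝ k Real.tanh := by
  have e1 : Real.tanh = (fun t => Real.sinh t / Real.cosh t) := by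
    funext s; exact (Real.tanh_eq_sinh_div_cosh s)
  rw [e1]
  exact Real.contDiff_sinh.div Real.contDiff_cosh fun t => (Real.cosh_pos t).ne'

lemma one_sub_tanh_le {t : ℝ} (ht : 0 ≤ t) : 1 - Real.tanh t ≤ 1 / (1 + t) := by
  have hc : 0 < Real.cosh t := Real.cosh_pos t
  rw [Real.tanh_eq_sinh_div_cosh, div_eq_mul_inv]
  have h1 : 1 - Real.sinh t * (Real.cosh t)⁻¹ = (Real.cosh t - Real.sinh t) / Real.cosh t := by
    field_simp
  rw [h1, div_le_div_iff₀ hc (by linarith), one_mul]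
  have h2 : Real.cosh t - Real.sinh t = Real.exp (-t) := Real.cosh_sub_sinh t
  have h3 : Real.cosh t = (Real.exp t + Real.exp (-t)) / 2 := Real.cosh_eq t
  have h4 : 1 + 2 * t ≤ Real.exp (2 * t) := by
    have := Real.add_one_le_exp (2 * t); linarith
  rw [h2, h3]
  have h5 : Real.exp t = Real.exp (-t) * Real.exp (2 * t) := by
    rw [← Real.exp_add]; congr 1; ring
  have h6 : 0 < Real.exp (-t) := Real.exp_pos _
  rw [h5]
  nlinarith

/-- The layer solution. -/
noncomputable def lay (e : Fin n → ℝ) (c : ℝ) (x : Fin n → ℝ) : ℝ :=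
  Real.tanh ((∑ i, e i * x i - c) / Real.sqrt 2)

lemma abs_lay_lt (e : Fin n → ℝ) (c : ℝ) (x : Fin n → ℝ) : |lay e c x| < 1 :=
  Real.abs_tanh_lt_one _

lemma contDiff_lay {k : WithTop ℕ∞} (e : Fin n → ℝ) (c : ℝ) : ContDiff ℝ k (lay e c) := by
  unfold lay
  exact contDiff_tanh.comp (((ContDiff.sum fun i _ => contDiff_const.mul
    (contDiff_apply ℝ ℝ i)).sub contDiff_const).div_const _)

lemma pd_lin (e : Fin n → ℝ) (c : ℝ) (x : Fin n → ℝ) (j : Fin n) :
    pd j (fun x : Fin n → ℝ => ∑ i, e i * x i - c) x = e j := by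
  have d1 : ∀ i : Fin n, DifferentiableAt ℝ (fun y : Fin n → ℝ => e i * y i) x := fun i => by
    fun_prop
  rw [pd_sub (DifferentiableAt.fun_sum fun i _ => d1 i) (differentiableAt_const _), pd_const,
    pd_sum Finset.univ (F := fun i y => e i * y i) (fun i _ => d1 i)]
  have e1 : ∀ i, pd j (fun y : Fin n → ℝ => e i * y i) x = if i = j then e i else 0 := by
    intro i
    rw [pd_mul (f := fun _ => e i) (differentiableAt_const _) (by fun_prop), pd_const, pd_coord]
    split_ifs <;> simp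
  simp_rw [e1]
  simp

lemma pd_lay (e : Fin n → ℝ) (c : ℝ) (x : Fin n → ℝ) (j : Fin n) :
    pd j (lay e c) x = (1 - lay e c x ^ 2) * (e j / Real.sqrt 2) := by
  have d0 : DifferentiableAt ℝ (fun x : Fin n → ℝ => ∑ i, e i * x i - c) x := by fun_prop
  have d1 : DifferentiableAt ℝ (fun x : Fin n → ℝ => (∑ i, e i * x i - c) / Real.sqrt 2) x := by
    have := d0.mul_const (Real.sqrt 2)⁻¹
    simpa [div_eq_mul_inv] using this
  have h := pd_comp (i := j) (h := Real.tanh) (hasDerivAt_tanh _).differentiableAt d1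
  rw [(hasDerivAt_tanh _).deriv] at h
  have e2 : pd j (fun x : Fin n → ℝ => (∑ i, e i * x i - c) / Real.sqrt 2) x
      = e j / Real.sqrt 2 := by
    have h2 := pd_mul (i := j) (x := x) (f := fun _ => (Real.sqrt 2)⁻¹)
      (g := fun x : Fin n → ℝ => ∑ i, e i * x i - c) (differentiableAt_const _) d0
    rw [pd_lin, pd_const] at h2
    have e3 : (fun x : Fin n → ℝ => (∑ i, e i * x i - c) / Real.sqrt 2)
        = fun y => (fun _ : Fin n → ℝ => (Real.sqrt 2)⁻¹) y * (∑ i, e i * y i - c) := by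
      funext y; simp only; ring
    rw [e3, h2]; ring
  rw [e2] at h
  exact h

/-- Equipartition for the layer. -/
lemma en_lay (he : ∑ i, e i ^ 2 = 1) (c : ℝ) (x : Fin n → ℝ) :
    en (lay e c) x = (1 - lay e c x ^ 2) ^ 2 / 2 := by
  unfold en
  simp_rw [pd_lay, mul_pow, div_pow]
  rw [← Finset.mul_sum, ← Finset.sum_div, he, Real.sq_sqrt (by norm_num)]
  ring

lemma pd_Ps (hf : DifferentiableAt ℝ f x) (j : Fin n) :
    pd j (fun x => Ps (f x)) x = (1 - f x ^ 2) / Real.sqrt 2 * pd j f x := by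
  rw [pd_comp (h := Ps) (hasDerivAt_Ps _).differentiableAt hf, (hasDerivAt_Ps _).deriv]

lemma contDiff_Ps {k : WithTop ℕ∞} : ContDiff ℝ k Ps := by
  unfold Ps; fun_prop

lemma dd_Ps (hf : DifferentiableAt ℝ f x) (e : Fin n → ℝ) :
    dd e (fun x => Ps (f x)) x = (1 - f x ^ 2) / Real.sqrt 2 * dd e f x := by
  unfold dd
  simp_rw [pd_Ps hf]
  rw [Finset.mul_sum]
  exact Finset.sum_congr rfl fun j _ => by ring

lemma en_lay' (he : ∑ i, e i ^ 2 = 1) (c : ℝ) (x : Fin n → ℝ) :
    en (lay e c) x = dd e (fun x => Ps (lay e c x)) x := by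
  rw [dd_Ps ((contDiff_lay (k := 1) e c).differentiable (by norm_num) x), en_lay he]
  unfold dd
  simp_rw [pd_lay]
  have h1 : ∑ i, e i * ((1 - lay e c x ^ 2) * (e i / Real.sqrt 2))
      = (1 - lay e c x ^ 2) / Real.sqrt 2 * ∑ i, e i ^ 2 := by
    rw [Finset.mul_sum]; exact Finset.sum_congr rfl fun i _ => by ring
  rw [h1, he]
  have h2 : Real.sqrt 2 * Real.sqrt 2 = 2 := Real.mul_self_sqrt (by norm_num)
  have h3 := sqrt2_pos.ne'
  field_simp
  nlinarith [h2]

/-- Integration by parts for a directional derivative. -/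
lemma integral_mul_dd (hf : ContDiff ℝ 1 f) (hφ : ContDiff ℝ 1 φ) (hc : HasCompactSupport φ)
    (e : Fin n → ℝ) : ∫ x, φ x * dd e f x = - ∫ x, f x * dd e φ x := by
  have h := integral_div_weight (F := fun j x => e j * f x)
    (fun j => contDiff_const.mul hf) hφ hc
  have e1 : ∀ x, ∑ j, pd j (fun x => e j * f x) x = dd e f x := by
    intro x
    unfold dd
    refine Finset.sum_congr rfl fun j _ => ?_
    rw [pd_mul (f := fun _ => e j) (differentiableAt_const _)
      (hf.differentiable (by norm_num) x), pd_const]; ring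
  have e2 : ∀ x, ∑ j, e j * f x * pd j φ x = f x * dd e φ x := by
    intro x
    unfold dd
    rw [Finset.mul_sum]
    exact Finset.sum_congr rfl fun j _ => by ring
  simp_rw [e1, e2] at h
  exact h

lemma abs_dd_le (he : ∑ i, e i ^ 2 = 1) (f : (Fin n → ℝ) → ℝ) (x : Fin n → ℝ) :
    |dd e f x| ≤ gn f x := by
  apply abs_le_of_sq_le_sq _ (gn_nonneg _ _)
  rw [gn_sq]
  unfold dd
  have := Finset.sum_mul_sq_le_sq_mul_sq Finset.univ e (fun i => pd i f x)
  rw [he, one_mul] at this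
  exact this

lemma continuous_dd (hf : ContDiff ℝ 1 f) (e : Fin n → ℝ) : Continuous (dd e f) :=
  continuous_finsetSum _ fun j _ => continuous_const.mul (continuous_pd hf)

/-- `ε(φ) := ∫ |∇φ| |Ps g_e - Ps u|`. -/
noncomputable def err (φ u : (Fin n → ℝ) → ℝ) (e : Fin n → ℝ) (c : ℝ) : ℝ :=
  ∫ x, gn φ x * |Ps (lay e c x) - Ps (u x)|

theorem lay_upper (hu : Sol u) (hq : ∀ x, 0 < pd q u x) (hl : Lim q u) (e : Fin n → ℝ) (c : ℝ)
    (hφ : ContDiff ℝ 1 φ) (hc : HasCompactSupport φ) (hφ0 : ∀ x, 0 ≤ φ x) :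
    ∫ x, φ x * en u x ≤ (∫ x, φ x * en (lay e c) x) + err φ u e c :=
  calib hu hq hl (contDiff_lay e c) (fun x => abs_lay_lt e c x) hφ hc hφ0

theorem lay_lower (hu : Sol u) (he : ∑ i, e i ^ 2 = 1) (c : ℝ)
    (hφ : ContDiff ℝ 1 φ) (hc : HasCompactSupport φ) :
    (∫ x, φ x * en (lay e c) x) - err φ u e c
      ≤ ∫ x, φ x * (psi u x / Real.sqrt 2 * dd e u x) := by
  have hu1 : ContDiff ℝ 1 u := hu.c2.of_le (by norm_num)
  have c1 : ContDiff ℝ 1 (fun x => Ps (u x)) := contDiff_Ps.comp hu1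
  have c2 : ContDiff ℝ 1 (fun x => Ps (lay e c x)) := contDiff_Ps.comp (contDiff_lay e c)
  have e1 : ∫ x, φ x * (psi u x / Real.sqrt 2 * dd e u x)
      = ∫ x, φ x * dd e (fun x => Ps (u x)) x := by
    congr 1; ext x
    rw [dd_Ps (hu1.differentiable (by norm_num) x)]
    rfl
  have e2 : ∫ x, φ x * en (lay e c) x = ∫ x, φ x * dd e (fun x => Ps (lay e c x)) x := by
    congr 1; ext x
    rw [en_lay' he]
  rw [e1, e2, integral_mul_dd c1 hφ hc, integral_mul_dd c2 hφ hc]
  have cd : Continuous (dd e φ) := continuous_dd hφ e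
  have sd : HasCompactSupport (dd e φ) := by
    apply HasCompactSupport.intro hc
    intro x hx
    unfold dd
    exact Finset.sum_eq_zero fun j _ => by rw [pd_eq_zero_of_notMem_tsupport hx, mul_zero]
  have i1 : Integrable (fun x => Ps (u x) * dd e φ x) :=
    (c1.continuous.mul cd).integrable_of_hasCompactSupport sd.mul_left
  have i2 : Integrable (fun x => Ps (lay e c x) * dd e φ x) :=
    (c2.continuous.mul cd).integrable_of_hasCompactSupport sd.mul_left
  have i3 : Integrable (fun x => gn φ x * |Ps (lay e c x) - Ps (u x)|) :=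
    ((continuous_gn hφ).mul (c2.continuous.sub c1.continuous).abs).integrable_of_hasCompactSupport
      (hasCompactSupport_gn hc).mul_right
  have h1 : (∫ x, Ps (u x) * dd e φ x) - (∫ x, Ps (lay e c x) * dd e φ x) ≤ err φ u e c := by
    unfold err
    rw [← integral_sub i1 i2]
    apply integral_mono (i1.sub i2) i3
    intro x
    simp only [Pi.sub_apply]
    have h2 := abs_dd_le he φ x
    have h3 : Ps (u x) * dd e φ x - Ps (lay e c x) * dd e φ x
        = (Ps (u x) - Ps (lay e c x)) * dd e φ x := by ring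
    rw [h3]
    refine (le_abs_self _).trans ?_
    rw [abs_mul, abs_sub_comm, mul_comm]
    exact mul_le_mul_of_nonneg_right h2 (abs_nonneg _)
  linarith

/-- `m |∇u| ≤ e(u)`. -/
lemma Sol.psi_gn_le (hu : Sol u) (x : Fin n → ℝ) : psi u x / Real.sqrt 2 * gn u x ≤ en u x := by
  unfold en
  rw [← gn_sq]
  have h1 := sq_nonneg (psi u x / Real.sqrt 2 - gn u x)
  have h2 : (psi u x / Real.sqrt 2) ^ 2 = psi u x ^ 2 / 2 := by
    rw [div_pow, Real.sq_sqrt (by norm_num)]
  have h3 : (1 - u x ^ 2) ^ 2 / 4 = psi u x ^ 2 / 4 := rfl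
  rw [h3]
  nlinarith

theorem lay_lower_en (hu : Sol u) (he : ∑ i, e i ^ 2 = 1) (c : ℝ)
    (hφ : ContDiff ℝ 1 φ) (hc : HasCompactSupport φ) (hφ0 : ∀ x, 0 ≤ φ x) :
    (∫ x, φ x * en (lay e c) x) - err φ u e c ≤ ∫ x, φ x * en u x := by
  refine (lay_lower hu he c hφ hc).trans ?_
  have hu1 : ContDiff ℝ 1 u := hu.c2.of_le (by norm_num)
  apply integral_mono
  · exact (hφ.continuous.mul ((hu.psi_contDiff.continuous.div_const _).mul
      (continuous_dd hu1 e))).integrable_of_hasCompactSupport hc.mul_right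
  · exact (hφ.continuous.mul (continuous_en hu1)).integrable_of_hasCompactSupport hc.mul_right
  intro x
  refine mul_le_mul_of_nonneg_left (le_trans ?_ (Sol.psi_gn_le hu x)) (hφ0 x)
  exact mul_le_mul_of_nonneg_left ((le_abs_self _).trans (abs_dd_le he u x))
    (div_nonneg (hu.psi_nonneg x) sqrt2_pos.le)

/-- Two-sided energy comparison with a layer. -/
theorem lay_two_sided (hu : Sol u) (hq : ∀ x, 0 < pd q u x) (hl : Lim q u)
    (he : ∑ i, e i ^ 2 = 1) (c : ℝ)
    (hφ : ContDiff ℝ 1 φ) (hc : HasCompactSupport φ) (hφ0 : ∀ x, 0 ≤ φ x) :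
    |(∫ x, φ x * en u x) - ∫ x, φ x * en (lay e c) x| ≤ err φ u e c := by
  rw [abs_le]
  have h1 := lay_upper hu hq hl e c hφ hc hφ0
  have h2 := lay_lower_en hu he c hφ hc hφ0
  constructor <;> linarith

/-- Oriented flatness from closeness to a layer. -/
theorem oriented (hu : Sol u) (hq : ∀ x, 0 < pd q u x) (hl : Lim q u)
    (he : ∑ i, e i ^ 2 = 1) (c : ℝ)
    (hφ : ContDiff ℝ 1 φ) (hc : HasCompactSupport φ) (hφ0 : ∀ x, 0 ≤ φ x) :
    ∫ x, φ x * (en u x - psi u x / Real.sqrt 2 * dd e u x) ≤ 2 * err φ u e c := by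
  have h1 := lay_upper hu hq hl e c hφ hc hφ0
  have h2 := lay_lower hu he c hφ hc
  have hu1 : ContDiff ℝ 1 u := hu.c2.of_le (by norm_num)
  have i1 : Integrable (fun x => φ x * (psi u x / Real.sqrt 2 * dd e u x)) :=
    (hφ.continuous.mul ((hu.psi_contDiff.continuous.div_const _).mul
      (continuous_dd hu1 e))).integrable_of_hasCompactSupport hc.mul_right
  have i2 : Integrable (fun x => φ x * en u x) :=
    (hφ.continuous.mul (continuous_en hu1)).integrable_of_hasCompactSupport hc.mul_right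
  simp_rw [mul_sub]
  rw [integral_sub i2 i1]
  linarith

end Vale.Agent.P134.H688
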