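import Vale.Agent.P134.H688.LayE
import Vale.Agent.P134.H891.Height
import Vale.Agent.P134.H891.Prof

set_option linter.all false

/-! `OUT2 ⟹ OUT1`: the sharp energy bound. -/

open MeasureTheory Filter Topology Set

namespace Vale.Agent.P134.H688

open Vale.Agent.P134 Vale.Agent.P134.SM Vale.Agent.P134.M4
open Vale.Agent.P134.H891 (Psi ph mm pp ph_nonneg mm_nonneg mm_le_one mm_eq_zero ph_contDiff
  ph_hasCompactSupport hasDerivAt_Psi contDiff_Psi Psi_neg_one continuous_Psi ph_grad_le TT II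
  Th_mono Psi_one_le Psi_nonneg Psi_le_Psi_one Psi_le_one ph_le_one)

variable {n : ℕ} {u V φ f η : (Fin n → ℝ) → ℝ} {x : Fin n → ℝ}

/-- `c₀ 1_{e·x>0}`. -/
noncomputable def hsf (e : Fin n → ℝ) (x : Fin n → ℝ) : ℝ :=
  if 0 < ∑ i, e i * x i then Psi 1 else 0

lemma hsf_mem (e x : Fin n → ℝ) : 0 ≤ hsf e x ∧ hsf e x ≤ 1 := by
  unfold hsf
  have h0 : 0 ≤ Psi 1 := Psi_nonneg (by norm_num)
  have h1 := Psi_one_le
  split_ifs
  · exact ⟨h0, h1⟩
  · exact ⟨le_rfl, zero_le_one⟩

lemma measurable_hsf (e : Fin n → ℝ) : Measurable (hsf e) := by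
  unfold hsf
  apply Measurable.ite _ measurable_const measurable_const
  exact measurableSet_lt measurable_const
    (continuous_finsetSum _ fun i _ => continuous_const.mul (continuous_apply i)).measurable

lemma bl_subset_box {R : ℝ} (hR : 0 ≤ R) : (bl R : Set (Fin n → ℝ)) ⊆ box n R := by
  intro x hx
  rw [mem_box]
  intro i
  have h1 : x i ^ 2 ≤ R ^ 2 :=
    (Finset.single_le_sum (f := fun i => x i ^ 2) (fun i _ => sq_nonneg _)
      (Finset.mem_univ i)).trans hx
  exact abs_le_of_sq_le_sq h1 hR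

lemma measurableSet_bl (R : ℝ) : MeasurableSet (bl R : Set (Fin n → ℝ)) := by
  have : Continuous (rho (Finset.univ : Finset (Fin n))) := (rho_contDiff (k := 1) _).continuous
  exact (isClosed_le this continuous_const).measurableSet

lemma integrableOn_hsf {g : (Fin n → ℝ) → ℝ} (hg : Continuous g) (e : Fin n → ℝ) {R : ℝ}
    {K : Set (Fin n → ℝ)} (hK : K ⊆ box n R) : IntegrableOn (fun x => |g x - hsf e x|) K := by
  have h1 : IntegrableOn (fun x => |g x| + 1) K := integrableOn_box (hg.abs.add continuous_const) hK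
  refine h1.mono' ?_ ?_
  · exact (((hg.measurable.sub (measurable_hsf e)).norm)).aestronglyMeasurable
  · filter_upwards with x
    rw [Real.norm_eq_abs, abs_abs]
    have h2 := hsf_mem e x
    refine (abs_sub _ _).trans ?_
    rw [abs_of_nonneg h2.1]
    linarith [h2.2]

/-- The layer is close to the half space. -/
theorem lay_hsf {e : Fin 4 → ℝ} (he : ∑ i, e i ^ 2 = 1) {η R : ℝ} (hη : 0 < η) (hR : 0 < R) :
    ∫ x in box 4 R, |Psi (lay e 0 x) - hsf e x| ≤ (32 / (η * R) + 64 * η) * R ^ 4 := by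
  have hηR : 0 < η * R := mul_pos hη hR
  set S := slab e (η * R) R with hS
  have hSb : S ⊆ box 4 R := fun x hx => hx.1
  have mS : MeasurableSet S := measurableSet_slab _ _ _
  have mB : MeasurableSet (box 4 R) := (isCompact_box R).measurableSet
  have cl : Continuous (fun x => Psi (lay e 0 x)) :=
    continuous_Psi.comp (contDiff_lay (k := 1) e 0).continuous
  have hpsi : ∀ x, 0 ≤ Psi (lay e 0 x) ∧ Psi (lay e 0 x) ≤ 1 := fun x =>
    ⟨Psi_nonneg (abs_lay_lt _ _ _).le, Psi_le_one (abs_lay_lt _ _ _).le⟩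
  have h1 : ∀ x, |Psi (lay e 0 x) - hsf e x| ≤ 1 := by
    intro x
    have := hpsi x; have := hsf_mem e x
    rw [_root_.abs_le]; constructor <;> linarith
  have h2 : ∀ x ∈ box 4 R \ S, |Psi (lay e 0 x) - hsf e x| ≤ 2 / (η * R) := by
    rintro x ⟨hx, hxS⟩
    have h3 : η * R < |∑ i, e i * x i| := by
      by_contra hcon
      exact hxS ⟨hx, not_lt.mp hcon⟩
    rcases lt_abs.mp h3 with h4 | h4
    · have h5 : hsf e x = Psi 1 := if_pos (hηR.trans h4)
      rw [h5, Psi_eq_Ps, Psi_eq_Ps, add_sub_add_right_eq_sub, abs_sub_comm]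
      refine (abs_Ps_sub_le (by simp) (abs_lay_lt _ _ _).le).trans ?_
      exact lay_near (Or.inl rfl) hηR (by linarith)
    · have h5 : hsf e x = Psi (-1) := by
        rw [Psi_neg_one]; exact if_neg (by linarith)
      rw [h5, Psi_eq_Ps, Psi_eq_Ps, add_sub_add_right_eq_sub, abs_sub_comm]
      refine (abs_Ps_sub_le (by simp) (abs_lay_lt _ _ _).le).trans ?_
      exact lay_near (Or.inr rfl) hηR (by linarith)
  have iF : ∀ {K : Set (Fin 4 → ℝ)}, K ⊆ box 4 R →
      IntegrableOn (fun x => |Psi (lay e 0 x) - hsf e x|) K := fun h => integrableOn_hsf cl e h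
  have hsplit : ∫ x in box 4 R, |Psi (lay e 0 x) - hsf e x|
      = (∫ x in S, |Psi (lay e 0 x) - hsf e x|)
        + ∫ x in box 4 R \ S, |Psi (lay e 0 x) - hsf e x| := by
    rw [← setIntegral_union disjoint_sdiff_right (mB.diff mS) (iF hSb) (iF diff_subset),
      union_diff_cancel hSb]
  have b1 : ∫ x in S, |Psi (lay e 0 x) - hsf e x| ≤ 64 * η * R ^ 4 := by
    have c1 : ∫ x in S, |Psi (lay e 0 x) - hsf e x| ≤ ∫ x in S, (1:ℝ) :=
      setIntegral_mono (iF hSb) (integrableOn_box continuous_const hSb) h1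
    rw [setIntegral_const, smul_eq_mul, mul_one] at c1
    have c2 := volume_slab_le (by norm_num : 0 < 4) he hηR.le hR.le
    refine c1.trans (c2.trans (le_of_eq ?_))
    norm_num
    ring
  have b2 : ∫ x in box 4 R \ S, |Psi (lay e 0 x) - hsf e x| ≤ 32 / (η * R) * R ^ 4 := by
    have hsub : box 4 R \ S ⊆ box 4 R := diff_subset
    have c1 : ∫ x in box 4 R \ S, |Psi (lay e 0 x) - hsf e x|
        ≤ ∫ x in box 4 R \ S, (2 / (η * R)) :=
      setIntegral_mono_on (iF hsub) (integrableOn_box continuous_const hsub) (mB.diff mS) h2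
    rw [setIntegral_const, smul_eq_mul] at c1
    have c2 : (volume (box 4 R \ S)).toReal ≤ (2 * R) ^ 4 := by
      rw [← volume_box hR.le]
      exact ENNReal.toReal_mono (isCompact_box _).measure_lt_top.ne (measure_mono hsub)
    have c3 : volume.real (box 4 R \ S) * (2 / (η * R)) ≤ (2 * R) ^ 4 * (2 / (η * R)) :=
      mul_le_mul_of_nonneg_right c2 (by positivity)
    refine c1.trans (c3.trans (le_of_eq ?_))
    ring
  rw [hsplit]
  linarith

lemma eventually_lay_hsf {ε : ℝ} (hε : 0 < ε) : ∀ᶠ R : ℝ in atTop, ∀ e : Fin 4 → ℝ,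
    ∑ i, e i ^ 2 = 1 → ∫ x in box 4 R, |Psi (lay e 0 x) - hsf e x| ≤ ε * R ^ 4 := by
  set η : ℝ := ε / 128 with hη
  have hη0 : 0 < η := by positivity
  filter_upwards [eventually_ge_atTop (64 / (η * ε) + 1)] with R hR e he
  have hR0 : 0 < R := by
    have : 0 < 64 / (η * ε) := by positivity
    linarith
  refine (lay_hsf he hη0 hR0).trans ?_
  apply mul_le_mul_of_nonneg_right _ (by positivity)
  have h1 : 32 / (η * R) ≤ ε / 2 := by
    rw [div_le_div_iff₀ (by positivity) (by norm_num)]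
    have h2 : 64 / (η * ε) ≤ R := by linarith
    rw [div_le_iff₀ (by positivity)] at h2
    linarith
  have h3 : 64 * η = ε / 2 := by rw [hη]; ring
  linarith

/-- `|∇ ph_R| ≤ 4/R`, supported in the ball. -/
lemma gn_ph_le {R : ℝ} (hR : 0 < R) (x : Fin n → ℝ) : gn (ph R) x ≤ 4 / R * mm R x := by
  unfold gn
  rw [Real.sqrt_le_left (mul_nonneg (by positivity) (mm_nonneg _ _))]
  exact ph_grad_le hR x

lemma mm_le_indicator {R : ℝ} (hR : 0 < R) (x : Fin n → ℝ) :
    mm R x ≤ (bl R : Set (Fin n → ℝ)).indicator (fun _ => (1:ℝ)) x := by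
  by_cases hx : x ∈ (bl R : Set (Fin n → ℝ))
  · rw [indicator_of_mem hx]; exact mm_le_one x
  · rw [indicator_of_notMem hx]
    have h : R ^ 2 ≤ esq x := by
      have : ¬ (rho Finset.univ x ≤ R ^ 2) := hx
      exact (not_le.mp this).le
    rw [mm_eq_zero hR h]

/-- Weighted integrals against `|∇ ph_R|`. -/
lemma integral_gn_ph_le {R : ℝ} (hR : 0 < R) {g : (Fin n → ℝ) → ℝ} (hg : Continuous g)
    (hg0 : ∀ x, 0 ≤ g x) :
    ∫ x, gn (ph R) x * g x ≤ 4 / R * ∫ x in bl R, g x := by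
  have hb := bl_subset_box (n := n) hR.le
  have i1 : Integrable ((bl R : Set (Fin n → ℝ)).indicator fun x => 4 / R * g x) :=
    (integrable_indicator_iff (measurableSet_bl R)).mpr
      (integrableOn_box (continuous_const.mul hg) hb)
  have i2 : Integrable (fun x => gn (ph R) x * g x) :=
    ((continuous_gn (ph_contDiff R)).mul hg).integrable_of_hasCompactSupport
      (hasCompactSupport_gn (ph_hasCompactSupport hR)).mul_right
  rw [← integral_const_mul, ← integral_indicator (measurableSet_bl R)]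
  apply integral_mono i2 i1
  intro x
  simp only
  have h1 := gn_ph_le hR x
  have h2 := mm_le_indicator hR x
  by_cases hx : x ∈ (bl R : Set (Fin n → ℝ))
  · rw [indicator_of_mem hx] at h2 ⊢
    apply mul_le_mul_of_nonneg_right _ (hg0 x)
    calc gn (ph R) x ≤ 4 / R * mm R x := h1
      _ ≤ 4 / R * 1 := mul_le_mul_of_nonneg_left h2 (by positivity)
      _ = 4 / R := mul_one _
  · rw [indicator_of_notMem hx] at h2 ⊢
    have h3 : mm R x = 0 := le_antisymm h2 (mm_nonneg _ _)
    rw [h3, mul_zero] at h1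
    have h4 := le_antisymm h1 (gn_nonneg _ _)
    rw [h4, zero_mul]

lemma Mo.lim {u : (Fin 4 → ℝ) → ℝ} (h : Mo u) : Lim 3 u := ⟨h.top, h.bot⟩

lemma TT_eq (u : (Fin 4 → ℝ) → ℝ) (R : ℝ) :
    TT (fun _ => 1) u R = (∫ x, ph R x * en u x) / R ^ 3 := by
  unfold TT II
  congr 1
  · congr 1; ext x; ring

theorem out1_of_out2 {u : (Fin 4 → ℝ) → ℝ} (h : Mo u) (h2 : OUT2 u) : OUT1 u := by
  intro R0 hR0
  have hu : Sol u := h.toSol
  set w : ℝ := ∫ y : Fin 3 → ℝ, ph 1 y with hw
  suffices hTT : TT (fun _ => 1) u R0 ≤ Psi 1 * w by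
    rw [TT_eq, div_le_iff₀ (by positivity)] at hTT
    refine le_trans (le_of_eq ?_) hTT
    congr 1; ext x; ring
  apply le_of_forall_pos_le_add
  intro ε hε
  obtain ⟨R, hR1, hR2, hR3⟩ := ((eventually_ge_atTop R0).and
    ((h2 (ε / 8) (by positivity)).and (eventually_lay_hsf (ε := ε / 8) (by positivity)))).exists
  have hR : 0 < R := lt_of_lt_of_le hR0 hR1
  obtain ⟨e, he, hE⟩ := hR2
  have hmono := Th_mono hu (3 : Fin 4) (Set.mem_Ioi.mpr hR0) (Set.mem_Ioi.mpr hR) hR1
  refine hmono.trans ?_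
  rw [TT_eq, div_le_iff₀ (by positivity)]
  have k1 := lay_upper hu h.pos (Mo.lim h) e 0 (ph_contDiff R) (ph_hasCompactSupport hR)
    (ph_nonneg R)
  have k2 := lay_energy_le (m := 3) he hR
  rw [integral_ph 3 hR, ← hw] at k2
  have cl : Continuous (fun x => Psi (lay e 0 x)) :=
    continuous_Psi.comp (contDiff_lay (k := 1) e 0).continuous
  have cu : Continuous (fun x => Psi (u x)) := continuous_Psi.comp hu.c2.continuous
  have hb := bl_subset_box (n := 4) hR.le
  have k3 : err (ph R) u e 0 ≤ 4 / R * ∫ x in bl R, |Psi (lay e 0 x) - Psi (u x)| := by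
    unfold err
    have e1 : ∀ x, |Ps (lay e 0 x) - Ps (u x)| = |Psi (lay e 0 x) - Psi (u x)| := fun x => by
      rw [Psi_eq_Ps, Psi_eq_Ps, add_sub_add_right_eq_sub]
    simp_rw [e1]
    exact integral_gn_ph_le hR (cl.sub cu).abs (fun _ => abs_nonneg _)
  have k4 : ∫ x in bl R, |Psi (lay e 0 x) - Psi (u x)|
      ≤ (∫ x in bl R, |Psi (lay e 0 x) - hsf e x|) + ∫ x in bl R, |Psi (u x) - hsf e x| := by
    have j1 := integrableOn_hsf cl e hb
    have j2 := integrableOn_hsf cu e hb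
    rw [← integral_add j1 j2]
    apply setIntegral_mono (integrableOn_box (cl.sub cu).abs hb) (j1.add j2)
    intro x
    simp only [Pi.add_apply]
    have := abs_sub_le (Psi (lay e 0 x)) (hsf e x) (Psi (u x))
    rw [abs_sub_comm (hsf e x)] at this
    exact this
  have k5 : ∫ x in bl R, |Psi (lay e 0 x) - hsf e x| ≤ ε / 8 * R ^ 4 := by
    refine le_trans ?_ (hR3 e he)
    exact setIntegral_mono_set (integrableOn_hsf cl e subset_rfl)
      (Eventually.of_forall fun _ => abs_nonneg _) hb.eventuallyLE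
  have k6 : ∫ x in bl R, |Psi (u x) - hsf e x| ≤ ε / 8 * R ^ 4 := by
    refine le_trans (le_of_eq ?_) hE
    unfold hsf
    rfl
  have k7 : err (ph R) u e 0 ≤ ε * R ^ 3 := by
    calc err (ph R) u e 0 ≤ 4 / R * (ε / 8 * R ^ 4 + ε / 8 * R ^ 4) := by
          refine k3.trans (mul_le_mul_of_nonneg_left (k4.trans (add_le_add k5 k6)) (by positivity))
      _ = ε * R ^ 3 := by field_simp; ring
  calc ∫ x, ph R x * en u x ≤ Psi 1 * (R ^ 3 * w) + ε * R ^ 3 := by linarith
    _ = (Psi 1 * w + ε) * R ^ 3 := by ring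

end Vale.Agent.P134.H688
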