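import Vale.Agent.P134.H688.Out
import Vale.Agent.P134.PLN.Defs

/-! PLN-OUT1: `OUT2` and the sharp flux inequality give `OUT1`. -/

namespace Vale.Agent.P134.PLN

open Vale.Agent.P134 Vale.Agent.P134.SM Vale.Agent.P134.M4

theorem out1 : StOut1 := fun _ h _ _ h2 => Vale.Agent.P134.H688.out1_of_out2 h h2

end Vale.Agent.P134.PLN
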