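import Vale.Agent.P134.H688.Layer

set_option linter.all false

/-! `L¹` Poincare inequality on bounded convex sets, by translations. -/

namespace Vale.Agent.P134.H688

open Vale.Agent.P134 MeasureTheory Filter Topology Set
open scoped ENNReal

variable {n : ℕ} {u v T φ f g G : (Fin n → ℝ) → ℝ} {x e : Fin n → ℝ} {i j q : Fin n}
  {K : Set (Fin n → ℝ)} {ρ : ℝ}

lemma abs_dd_le_norm (a : Fin n → ℝ) (f : (Fin n → ℝ) → ℝ) (x : Fin n → ℝ) :
    |dd a f x| ≤ ‖a‖ * n * gn f x := by
  unfold dd
  refine (Finset.abs_sum_le_sum_abs _ _).trans ?_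
  have h1 : ∀ i ∈ (Finset.univ : Finset (Fin n)), |a i * pd i f x| ≤ ‖a‖ * gn f x := by
    intro i _
    rw [abs_mul]
    refine mul_le_mul (norm_le_pi_norm a i) ?_ (abs_nonneg _) (norm_nonneg _)
    apply abs_le_of_sq_le_sq _ (gn_nonneg _ _)
    rw [gn_sq]
    exact Finset.single_le_sum (f := fun i => pd i f x ^ 2) (fun _ _ => sq_nonneg _)
      (Finset.mem_univ i)
  refine (Finset.sum_le_sum h1).trans (le_of_eq ?_)
  simp only [Finset.sum_const, Finset.card_univ, Fintype.card_fin, nsmul_eq_mul]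
  ring

/-- Fundamental theorem of calculus on a segment, `ENNReal` form. -/
lemma ftc_seg (hG : ContDiff ℝ 1 G) (z a : Fin n → ℝ) :
    ENNReal.ofReal |G (z + a) - G z|
      ≤ ∫⁻ t in Ioc (0:ℝ) 1, ENNReal.ofReal (‖a‖ * n * gn G (z + t • a)) := by
  have hd : Differentiable ℝ G := hG.differentiable (by norm_num)
  have hcd : Continuous (fun t : ℝ => dd a G (z + t • a)) :=
    (continuous_dd hG a).comp (by fun_prop)
  have h1 : ∫ t in (0:ℝ)..1, dd a G (z + t • a) = G (z + a) - G z := by
    have := intervalIntegral.integral_eq_sub_of_hasDerivAt (a := (0:ℝ)) (b := 1)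
      (f := fun t : ℝ => G (z + t • a)) (f' := fun t => dd a G (z + t • a))
      (fun t _ => hasDerivAt_dd hd z a t) (hcd.intervalIntegrable _ _)
    rw [this]; simp
  rw [← h1, intervalIntegral.integral_of_le zero_le_one, ← Real.enorm_eq_ofReal_abs]
  refine (enorm_integral_le_lintegral_enorm _).trans ?_
  apply lintegral_mono
  intro t
  simp only
  rw [Real.enorm_eq_ofReal_abs]
  exact ENNReal.ofReal_le_ofReal (abs_dd_le_norm a G _)

theorem poinc (hG : ContDiff ℝ 1 G) (hK : Convex ℝ K) (hKm : MeasurableSet K)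
    (hρ : 0 ≤ ρ) (hKρ : K ⊆ box n ρ) :
    ∫⁻ z in K, ∫⁻ x in K, ENNReal.ofReal |G x - G z|
      ≤ volume (box n (2 * ρ)) * (ENNReal.ofReal (2 * ρ * n)
        * ∫⁻ x in K, ENNReal.ofReal (gn G x)) := by
  classical
  set h : (Fin n → ℝ) → ℝ≥0∞ := K.indicator fun x => ENNReal.ofReal (gn G x) with hh
  have cg : Continuous (gn G) := continuous_gn hG
  have hhm : Measurable h := (cg.measurable.ennreal_ofReal).indicator hKm
  set F : (Fin n → ℝ) → (Fin n → ℝ) → ℝ≥0∞ := fun z x =>
    K.indicator (fun z => K.indicator (fun x => ENNReal.ofReal |G x - G z|) x) z with hF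
  have hFm : Measurable (fun p : (Fin n → ℝ) × (Fin n → ℝ) => F p.1 p.2) := by
    have e1 : (fun p : (Fin n → ℝ) × (Fin n → ℝ) => F p.1 p.2)
        = (K ×ˢ K).indicator (fun p => ENNReal.ofReal |G p.2 - G p.1|) := by
      funext p
      simp only [hF, indicator, mem_prod]
      by_cases h1 : p.1 ∈ K <;> by_cases h2 : p.2 ∈ K <;> simp [h1, h2]
    rw [e1]
    apply Measurable.indicator _ (hKm.prod hKm)
    have : Continuous (fun p : (Fin n → ℝ) × (Fin n → ℝ) => |G p.2 - G p.1|) :=
      ((hG.continuous.comp continuous_snd).sub (hG.continuous.comp continuous_fst)).abs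
    exact this.measurable.ennreal_ofReal
  have e1 : ∫⁻ z in K, ∫⁻ x in K, ENNReal.ofReal |G x - G z| = ∫⁻ z, ∫⁻ x, F z x := by
    rw [← lintegral_indicator hKm]
    apply lintegral_congr
    intro z
    simp only [hF]
    by_cases hz : z ∈ K
    · rw [indicator_of_mem hz, ← lintegral_indicator hKm]
      apply lintegral_congr
      intro x
      rw [indicator_of_mem hz]
    · rw [indicator_of_notMem hz]
      simp [indicator_of_notMem hz]
  have e2 : ∫⁻ z, ∫⁻ x, F z x = ∫⁻ z, ∫⁻ a, F z (a + z) := by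
    apply lintegral_congr
    intro z
    exact (lintegral_add_right_eq_self (fun x => F z x) z).symm
  have hFm2 : Measurable (fun p : (Fin n → ℝ) × (Fin n → ℝ) => F p.1 (p.2 + p.1)) :=
    hFm.comp (measurable_fst.prodMk (measurable_snd.add measurable_fst))
  have e3 : ∫⁻ z, ∫⁻ a, F z (a + z) = ∫⁻ a, ∫⁻ z, F z (a + z) :=
    lintegral_lintegral_swap hFm2.aemeasurable
  have key : ∀ a : Fin n → ℝ, ∫⁻ z, F z (a + z)
      ≤ (box n (2 * ρ)).indicator (fun _ => ENNReal.ofReal (2 * ρ * n) * ∫⁻ x, h x) a := by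
    intro a
    by_cases ha : a ∈ box n (2 * ρ)
    · rw [indicator_of_mem ha]
      have hna : ‖a‖ ≤ 2 * ρ := by
        rw [pi_norm_le_iff_of_nonneg (by linarith)]
        exact fun i => mem_box.mp ha i
      have hmz : Measurable (fun p : (Fin n → ℝ) × ℝ => h (p.1 + p.2 • a)) :=
        hhm.comp (by fun_prop)
      have k1 : ∀ z, F z (a + z) ≤ ∫⁻ t in Ioc (0:ℝ) 1, ENNReal.ofReal (2 * ρ * n)
          * h (z + t • a) := by
        intro z
        simp only [hF]
        by_cases hz : z ∈ K
        · by_cases hz2 : a + z ∈ K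
          · rw [indicator_of_mem hz, indicator_of_mem hz2, add_comm a z]
            refine (ftc_seg hG z a).trans ?_
            apply setLIntegral_mono' measurableSet_Ioc
            intro t ht
            have hmem : z + t • a ∈ K := by
              have := hK hz hz2 (a := 1 - t) (b := t) (by linarith [ht.2]) (by linarith [ht.1])
                (by ring)
              convert this using 1
              rw [smul_add, sub_smul, one_smul]; abel
            rw [hh, indicator_of_mem hmem, ← ENNReal.ofReal_mul (by positivity)]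
            apply ENNReal.ofReal_le_ofReal
            have : 0 ≤ gn G (z + t • a) := gn_nonneg _ _
            have hn : (0:ℝ) ≤ n := Nat.cast_nonneg n
            exact mul_le_mul_of_nonneg_right (mul_le_mul_of_nonneg_right hna hn) this
          · rw [indicator_of_mem hz, indicator_of_notMem hz2]; exact bot_le
        · rw [indicator_of_notMem hz]; exact bot_le
      calc ∫⁻ z, F z (a + z) ≤ ∫⁻ z, ∫⁻ t in Ioc (0:ℝ) 1, ENNReal.ofReal (2 * ρ * n)
          * h (z + t • a) := lintegral_mono k1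
        _ = ∫⁻ t in Ioc (0:ℝ) 1, ∫⁻ z, ENNReal.ofReal (2 * ρ * n) * h (z + t • a) := by
            rw [lintegral_lintegral_swap]
            exact (measurable_const.mul hmz).aemeasurable
        _ = ∫⁻ t in Ioc (0:ℝ) 1, ENNReal.ofReal (2 * ρ * n) * ∫⁻ x, h x := by
            apply lintegral_congr
            intro t
            have hm2 : Measurable (fun z : Fin n → ℝ => h (z + t • a)) := hhm.comp (by fun_prop)
            rw [lintegral_const_mul _ hm2]
            congr 1
            exact lintegral_add_right_eq_self (fun x => h x) (t • a)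
        _ = ENNReal.ofReal (2 * ρ * n) * ∫⁻ x, h x := by
            rw [setLIntegral_const]; simp
    · rw [indicator_of_notMem ha]
      apply le_of_eq
      have hz0 : ∀ z, F z (a + z) = 0 := ?_
      · simp_rw [hz0]; simp
      intro z
      simp only [hF]
      by_cases hz : z ∈ K
      · by_cases hz2 : a + z ∈ K
        · exfalso
          apply ha
          rw [mem_box]
          intro i
          have b1 := mem_box.mp (hKρ hz) i
          have b2 := mem_box.mp (hKρ hz2) i
          have : a i = (a + z) i - z i := by simp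
          rw [this]
          refine (abs_sub _ _).trans ?_
          linarith
        · rw [indicator_of_mem hz, indicator_of_notMem hz2]
      · rw [indicator_of_notMem hz]
  rw [e1, e2, e3]
  refine (lintegral_mono key).trans ?_
  rw [lintegral_indicator (isCompact_box _).measurableSet, setLIntegral_const, mul_comm]
  rw [hh, lintegral_indicator hKm]

lemma one_le_sqrt2 : (1:ℝ) ≤ Real.sqrt 2 := by
  rw [show (1:ℝ) = Real.sqrt 1 by simp]; exact Real.sqrt_le_sqrt (by norm_num)

lemma abs_Ps_one_sub {t : ℝ} (ht : |t| ≤ 1) (h0 : 0 ≤ t) : |Ps 1 - Ps t| ≤ 1 - t ^ 2 := by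
  have h1 := abs_le.mp ht
  have e : Ps 1 - Ps t = ((1 - t) ^ 2 * (2 + t) / 3) / Real.sqrt 2 := by
    unfold Ps; ring
  have h2 : 0 ≤ (1 - t) ^ 2 * (2 + t) / 3 := by positivity
  rw [e, abs_of_nonneg (div_nonneg h2 sqrt2_pos.le)]
  refine (div_le_self h2 one_le_sqrt2).trans ?_
  nlinarith [mul_nonneg (by linarith : (0:ℝ) ≤ 1 - t) h0, mul_nonneg (mul_nonneg (by linarith : (0:ℝ) ≤ 1 - t) h0) (by linarith : (0:ℝ) ≤ 1 - t)]

lemma Ps_neg (t : ℝ) : Ps (-t) = - Ps t := by unfold Ps; ring

lemma exists_sign_Ps {t : ℝ} (ht : |t| ≤ 1) :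
    |Ps 1 - Ps t| ≤ 1 - t ^ 2 ∨ |Ps (-1) - Ps t| ≤ 1 - t ^ 2 := by
  rcases le_total 0 t with h | h
  · exact Or.inl (abs_Ps_one_sub ht h)
  · right
    have := abs_Ps_one_sub (t := -t) (by rwa [abs_neg]) (by linarith)
    rw [Ps_neg] at this
    rw [show Ps (-1) - Ps t = -(Ps 1 - -Ps t) by rw [Ps_neg]; ring, abs_neg]
    simpa using this

lemma lint_real (hf : Continuous f) (h0 : ∀ x, 0 ≤ f x) (hKm : MeasurableSet K)
    (hKρ : K ⊆ box n ρ) :
    ∫⁻ x in K, ENNReal.ofReal (f x) = ENNReal.ofReal (∫ x in K, f x) := by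
  symm
  apply ofReal_integral_eq_lintegral_ofReal
  · exact (hf.continuousOn.integrableOn_compact (isCompact_box ρ)).mono_set hKρ
  · exact Eventually.of_forall h0

lemma volume_lt_top_of_box (hKρ : K ⊆ box n ρ) : volume K < ⊤ :=
  (measure_mono hKρ).trans_lt (isCompact_box ρ).measure_lt_top

lemma integrableOn_box (hf : Continuous f) (hKρ : K ⊆ box n ρ) : IntegrableOn f K :=
  (hf.continuousOn.integrableOn_compact (isCompact_box ρ)).mono_set hKρ

theorem poinc_const (hu : Sol u) (hK : Convex ℝ K) (hKm : MeasurableSet K)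
    (hρ : 0 ≤ ρ) (hKρ : K ⊆ box n ρ) :
    ∃ σ : ℝ, (σ = 1 ∨ σ = -1) ∧ (volume K).toReal * ∫ x in K, |Ps σ - Ps (u x)|
      ≤ (4 * ρ) ^ n * (2 * ρ * n * ∫ x in K, gn (fun x => Ps (u x)) x)
        + (volume K).toReal * ∫ x in K, psi u x := by
  have hu1 : ContDiff ℝ 1 u := hu.c2.of_le (by norm_num)
  have hG : ContDiff ℝ 1 (fun x => Ps (u x)) := contDiff_Ps.comp hu1
  set G : (Fin n → ℝ) → ℝ := fun x => Ps (u x) with hGdef
  have cG : Continuous G := hG.continuous
  have cψ : Continuous (psi u) := hu.psi_contDiff.continuous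
  set V : ℝ := (volume K).toReal with hV
  have hV0 : 0 ≤ V := ENNReal.toReal_nonneg
  have hVt : volume K = ENNReal.ofReal V := (ENNReal.ofReal_toReal (volume_lt_top_of_box hKρ).ne).symm
  set m : ℝ := min (∫ x in K, |Ps 1 - G x|) (∫ x in K, |Ps (-1) - G x|) with hm
  have hi : ∀ c : ℝ, IntegrableOn (fun x => |c - G x|) K := fun c =>
    integrableOn_box (continuous_const.sub cG).abs hKρ
  have hpos : 0 ≤ m := le_min (integral_nonneg fun _ => abs_nonneg _)
    (integral_nonneg fun _ => abs_nonneg _)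
  have hz : ∀ z : Fin n → ℝ, m ≤ (∫ x in K, |G x - G z|) + V * psi u z := by
    intro z
    have hi2 : IntegrableOn (fun x => |G x - G z|) K :=
      integrableOn_box (cG.sub continuous_const).abs hKρ
    have hVc : ∀ c : ℝ, ∫ x in K, c = V * c := by
      intro c; rw [setIntegral_const, smul_eq_mul]; rfl
    have gen : ∀ c : ℝ, |c - G z| ≤ psi u z →
        ∫ x in K, |c - G x| ≤ (∫ x in K, |G x - G z|) + V * psi u z := by
      intro c hc
      rw [← hVc, ← integral_add hi2 (integrableOn_box continuous_const hKρ)]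
      apply setIntegral_mono (hi c) (hi2.add (integrableOn_box continuous_const hKρ))
      intro x
      simp only [Pi.add_apply]
      have h1 : |c - G x| ≤ |c - G z| + |G z - G x| := abs_sub_le _ _ _
      rw [abs_sub_comm (G z) (G x)] at h1
      linarith
    rcases exists_sign_Ps (hu.bd z) with h | h
    · exact (min_le_left _ _).trans (gen _ h)
    · exact (min_le_right _ _).trans (gen _ h)
  have hP := poinc hG hK hKm hρ hKρ
  have hvol : volume (box n (2 * ρ)) = ENNReal.ofReal ((4 * ρ) ^ n) := by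
    rw [← ENNReal.ofReal_toReal (isCompact_box (2 * ρ)).measure_lt_top.ne, volume_box (by linarith)]
    congr 2; ring
  have cg : Continuous (gn G) := continuous_gn hG
  rw [hvol, lint_real cg (gn_nonneg G) hKm hKρ, ← ENNReal.ofReal_mul (by positivity),
    ← ENNReal.ofReal_mul (by positivity)] at hP
  have h1 : ∫⁻ z in K, ENNReal.ofReal m ≤ ∫⁻ z in K, ((∫⁻ x in K, ENNReal.ofReal |G x - G z|)
      + ENNReal.ofReal (V * psi u z)) := by
    apply lintegral_mono
    intro z
    simp only
    rw [lint_real (f := fun x => |G x - G z|) (cG.sub continuous_const).abs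
        (fun _ => abs_nonneg _) hKm hKρ,
      ← ENNReal.ofReal_add (integral_nonneg fun _ => abs_nonneg _)
        (mul_nonneg hV0 (hu.psi_nonneg z))]
    exact ENNReal.ofReal_le_ofReal (hz z)
  have hmeas : Measurable (fun z : Fin n → ℝ => ENNReal.ofReal (V * psi u z)) :=
    (continuous_const.mul cψ).measurable.ennreal_ofReal
  rw [lintegral_add_right _ hmeas, setLIntegral_const, hVt,
    lint_real (f := fun z => V * psi u z) (continuous_const.mul cψ)
      (fun z => mul_nonneg hV0 (hu.psi_nonneg z)) hKm hKρ,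
    ← ENNReal.ofReal_mul hpos] at h1
  have h2 := h1.trans (add_le_add_left hP _)
  have hgi : 0 ≤ ∫ x in K, gn G x := integral_nonneg fun _ => gn_nonneg _ _
  have hn : (0:ℝ) ≤ n := Nat.cast_nonneg n
  rw [← ENNReal.ofReal_add (by positivity) (integral_nonneg fun z =>
    mul_nonneg hV0 (hu.psi_nonneg z))] at h2
  rw [ENNReal.ofReal_le_ofReal_iff (add_nonneg (by positivity) (integral_nonneg fun z =>
    mul_nonneg hV0 (hu.psi_nonneg z)))] at h2
  rw [integral_const_mul] at h2
  rcases min_choice (∫ x in K, |Ps 1 - G x|) (∫ x in K, |Ps (-1) - G x|) with h | h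
  · refine ⟨1, Or.inl rfl, ?_⟩
    rw [← hm] at h
    rw [← h]; linarith
  · refine ⟨-1, Or.inr rfl, ?_⟩
    rw [← hm] at h
    rw [← h]; linarith

/-! ### Volume of a slab in a box -/

/-- The part of a box in a slab orthogonal to `e`. -/
def slab (e : Fin n → ℝ) (η ρ : ℝ) : Set (Fin n → ℝ) := {x | x ∈ box n ρ ∧ |∑ i, e i * x i| ≤ η}

lemma measurableSet_slab (e : Fin n → ℝ) (η ρ : ℝ) : MeasurableSet (slab e η ρ) := by
  have h1 : IsClosed {x : Fin n → ℝ | |∑ i, e i * x i| ≤ η} :=
    isClosed_le (continuous_finsetSum _ fun i _ => continuous_const.mul (continuous_apply i)).abs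
      continuous_const
  exact ((isCompact_box ρ).isClosed.inter h1).measurableSet

lemma exists_big_coord (hn : 0 < n) (he : ∑ i, e i ^ 2 = 1) : ∃ i, 1 ≤ n * |e i| := by
  by_contra hcon
  push Not at hcon
  have hn' : (0:ℝ) < n := by exact_mod_cast hn
  have h1 : ∀ i ∈ (Finset.univ : Finset (Fin n)), e i ^ 2 < 1 / n := by
    intro i _
    have h2 : |e i| < 1 / n := by rw [lt_div_iff₀ hn']; linarith [hcon i]
    have h3 : e i ^ 2 = |e i| ^ 2 := (sq_abs _).symm
    have h4 : (1:ℝ) / n ≤ 1 := by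
      rw [div_le_one hn']; exact_mod_cast hn
    rw [h3]
    nlinarith [abs_nonneg (e i)]
  have h5 : ∑ i : Fin n, e i ^ 2 < ∑ i : Fin n, (1:ℝ) / n :=
    Finset.sum_lt_sum_of_nonempty ⟨⟨0, hn⟩, Finset.mem_univ _⟩ h1
  rw [he] at h5
  simp at h5
  rw [mul_inv_cancel₀ hn'.ne'] at h5
  exact lt_irrefl _ h5

lemma volume_slab_le (hn : 0 < n) (he : ∑ i, e i ^ 2 = 1) {η : ℝ} (hη : 0 ≤ η) (hρ : 0 ≤ ρ) :
    (volume (slab e η ρ)).toReal ≤ n * (2 * η) * (2 * ρ) ^ (n - 1) := by
  obtain ⟨i, hi⟩ := exists_big_coord hn he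
  have hei : e i ≠ 0 := by
    intro h
    rw [h] at hi; simp at hi
    linarith
  set f : (Fin n → ℝ) →ₗ[ℝ] ℝ :=
    (∑ k, e k • (LinearMap.proj k : (Fin n → ℝ) →ₗ[ℝ] ℝ))
      - (LinearMap.proj i : (Fin n → ℝ) →ₗ[ℝ] ℝ) with hf
  have hfx : ∀ x, f x = ∑ k, e k * x k - x i := by
    intro x; simp [hf]
  set L : (Fin n → ℝ) →ₗ[ℝ] (Fin n → ℝ) := LinearMap.transvection f (Pi.single i 1) with hL
  have hdet : LinearMap.det L = e i := by
    rw [hL, LinearMap.transvection.det, hfx]
    simp [Pi.single_apply]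
  have hLx : ∀ x k, L x k = if k = i then ∑ k, e k * x k else x k := by
    intro x k
    rw [hL, LinearMap.transvection.apply, hfx]
    by_cases hk : k = i
    · subst hk; simp
    · simp [hk]
  have hsub : L '' slab e η ρ ⊆ bxL {i} η ρ := by
    rintro _ ⟨x, ⟨hx1, hx2⟩, rfl⟩
    rw [mem_bxL]
    intro k
    rw [hLx]
    by_cases hk : k = i
    · simp [hk]; exact hx2
    · simp [hk]; exact mem_box.mp hx1 k
  have hvol := Measure.addHaar_image_linearMap (μ := (volume : Measure (Fin n → ℝ))) L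
    (slab e η ρ)
  rw [hdet] at hvol
  have hle : ENNReal.ofReal |e i| * volume (slab e η ρ) ≤ volume (bxL {i} η ρ) := by
    rw [← hvol]; exact measure_mono hsub
  have hfin : volume (slab e η ρ) < ⊤ := volume_lt_top_of_box (ρ := ρ) fun x hx => hx.1
  have h1 := ENNReal.toReal_mono (isCompact_bxL (Λ := {i}) (M := η) (R := ρ)).measure_lt_top.ne hle
  rw [ENNReal.toReal_mul, ENNReal.toReal_ofReal (abs_nonneg _), volume_bxL hη hρ] at h1
  have hc1 : ({i} : Finset (Fin n)).card = 1 := Finset.card_singleton i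
  have hc2 : (({i} : Finset (Fin n))ᶜ).card = n - 1 := by
    rw [Finset.card_compl, Finset.card_singleton, Fintype.card_fin]
  rw [hc1, hc2, pow_one] at h1
  set V := (volume (slab e η ρ)).toReal
  have hV : 0 ≤ V := ENNReal.toReal_nonneg
  have hn' : (0:ℝ) < n := by exact_mod_cast hn
  calc V = 1 * V := (one_mul V).symm
    _ ≤ (n * |e i|) * V := mul_le_mul_of_nonneg_right hi hV
    _ = n * (|e i| * V) := by ring
    _ ≤ n * (2 * η * (2 * ρ) ^ (n - 1)) := mul_le_mul_of_nonneg_left h1 hn'.le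
    _ = n * (2 * η) * (2 * ρ) ^ (n - 1) := by ring

end Vale.Agent.P134.H688
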